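import Vale.Agent.P366HP.Hopf0
import Vale.Agent.P366M.Inv2

/-!
# P366HP: the strong maximum principle for the null expansion
-/

open Metric Filter Topology Set Matrix
open scoped ContDiff
open Vale.Agent.P366.Stmt Vale.Agent.P366.T1.B526

noncomputable section

namespace Vale.Agent.P366HP

variable {n : ℕ} {g K : Field n} {F G u : E n → ℝ} {x : E n}

/-- the barrier -/
def br (c : E n) (α : ℝ) (y : E n) : ℝ := Real.exp (-α * ‖y - c‖ ^ 2)

theorem br_cd (c : E n) (α : ℝ) : ContDiff ℝ 3 (br c α) :=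
  (contDiff_const.mul ((P366Z.contDiff_normSq (m := 3)).comp (contDiff_id.sub contDiff_const))).exp

theorem br_pd (c : E n) (α : ℝ) (i : Fin n) (y : E n) :
    pd i (br c α) y = br c α y * (-α * (2 * (y i - c i))) := by
  have d : DifferentiableAt ℝ (fun y : E n => ‖y - c‖ ^ 2) y :=
    (((P366Z.contDiff_normSq (m := 1)).comp (contDiff_id.sub contDiff_const)).differentiable
      one_ne_zero) y
  unfold br
  rw [P366Z.pd_exp (d.const_mul _), P366Z.pd_const_mul,
    P366Z.pd_translate (f := fun y => ‖y‖ ^ 2), P366Z.pd_normSq]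
  rfl

theorem br_fh (c : E n) (α : ℝ) (y : E n) (i j : Fin n) : fh (br c α) y i j =
    br c α y * (4 * α ^ 2 * ((y - c) i * (y - c) j) - 2 * α * if i = j then 1 else 0) := by
  have d : DifferentiableAt ℝ (fun y : E n => y j) y :=
    ((P366Z.contDiff_coord (m := 1) j).differentiable one_ne_zero) y
  rw [fh, funext (br_pd c α j), P366Z.pd_mul ((br_cd c α).differentiable (by simp) y)
    (((d.sub_const _).const_mul _).const_mul _), br_pd, P366Z.pd_const_mul, P366Z.pd_const_mul,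
    P366Z.pd_sub_const, P366Z.pd_coord]
  simp only [PiLp.sub_apply]
  ring

/-- the null expansion of the perturbed function -/
theorem theta_br (hF : ContDiffAt ℝ 2 F x) (c : E n) (α t : ℝ) :
    dd (fun y => F y - t * br c α y) x = (fun i => dd F x i + t * br c α x * (2 * α * (x - c) i)) ∧
    ∀ p, p = dd (fun y => F y - t * br c α y) x →
      thetaPlus g K (fun y => F y - t * br c α y) x = Th g K F (x, p) - t * br c α x *
        (4 * α ^ 2 * qf (tg (mat g x)⁻¹ p) (x - c).ofLp - 2 * α * ∑ i, tg (mat g x)⁻¹ p i i) /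
          √(bf (mat g x)⁻¹ p p) := by
  have b := fun y => (br_cd c α).differentiable (by simp) y
  have e : ∀ j, pd j (fun y => F y - t * br c α y) =ᶠ[𝓝 x]
      fun y => pd j F y - t * pd j (br c α) y := fun j => (P366Z.ev_diff hF).mono fun y hy => by
    simp only [P366Z.pd_sub hy ((b y).const_mul t), P366Z.pd_const_mul]
  refine ⟨funext fun i => by
    simp only [dd, (e i).self_of_nhds, br_pd, PiLp.sub_apply]; ring, fun p hp => ?_⟩
  have e2 : hess g (fun y => F y - t * br c α y) x = fun i j =>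
      (fh F x i j - ∑ k, chr g k i j x * p k) - t * fh (br c α) x i j := by
    funext i j
    rw [hess, P366Z.pd_congr (e j), P366Z.pd_sub (P366Z.diffAt_pd hF j)
      ((P366Z.diffAt_pd ((br_cd c α).contDiffAt.of_le (by norm_num)) j).const_mul t),
      P366Z.pd_const_mul, hp]
    simp only [fh, dd]
    ring
  rw [theta_eq, ← hp, e2, Th, add_sub_right_comm, ← sub_div]
  congr 2
  simp only [tt, qf, br_fh, mul_sub, Finset.sum_sub_distrib, Finset.mul_sum, mul_ite, mul_one,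
    mul_zero, Finset.sum_ite_eq, Finset.mem_univ, if_true]
  congr 2
  · exact Finset.sum_congr rfl fun i _ => Finset.sum_congr rfl fun j _ => by ring
  · exact Finset.sum_congr rfl fun i _ => by ring

theorem num {k B S C L r α s T τ : ℝ} (k0 : 0 < k) (hB : 0 ≤ B) (hC : 0 ≤ C) (hL : 0 ≤ L)
    (hr : 0 ≤ r) (s0 : 0 < s) (hs : s ≤ S) (hα : α = 1 + (2 * B + S * C + 2 * S * L * r) / k)
    (hT : k ≤ 4 * T) (hτ : τ ≤ B) : C + L * (2 * α * r) < (4 * α ^ 2 * T - 2 * α * τ) / s := by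
  have S0 : 0 ≤ S := s0.le.trans hs
  have a1 : 1 ≤ α := hα ▸ le_add_of_nonneg_right (by positivity)
  have a2 : α * k = k + (2 * B + S * C + 2 * S * L * r) := by rw [hα]; field_simp
  rw [lt_div_iff₀ s0]
  have h1 : (C + L * (2 * α * r)) * s ≤ (C + L * (2 * α * r)) * S := by gcongr
  have h2 : α ^ 2 * k ≤ α ^ 2 * (4 * T) := by gcongr
  have h3 : S * C ≤ α * (S * C) := le_mul_of_one_le_left (by positivity) a1
  have h4 : α * τ ≤ α * B := by gcongr
  have h5 : α ^ 2 * k = α * (k + (2 * B + S * C + 2 * S * L * r)) := by rw [← a2]; ring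
  nlinarith [mul_pos (one_pos.trans_le a1) k0]

/-- **The strong maximum principle** in a chart. -/
theorem hopf0 (hg : P366Z.Met g) (hK : ∀ i j, Smooth fun x => K x i j) (hF : ContDiffAt ℝ 3 F x)
    (hu : ContDiffAt ℝ 2 u x) (F0 : F x = 0) (u0 : u x = 0) (dF : dd F x ≠ 0) (du : dd u x ≠ 0)
    (h : ∀ᶠ y in 𝓝 x, (0 < u y → 0 < F y) ∧ (F y = 0 → thetaPlus g K F y ≤ 0) ∧
      (u y = 0 → 0 ≤ thetaPlus g K u y)) : ∀ᶠ y in 𝓝 x, u y = 0 → F y = 0 := by
  have cF := dd_cd (k := 1) hF (by norm_num)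
  have cu : ContinuousAt (dd u) x := (dd_cd (k := 1) hu (by norm_num)).continuousAt.snd
  obtain ⟨L, t0, ht0, hL⟩ := (Th_cd hg hK hF dF).exists_lipschitzOnWith
  obtain ⟨C, C0, hC⟩ := lin_bd (f := fun y => Th g K F (y, dd F y))
    (ContDiffAt.comp (g := Th g K F) x (Th_cd hg hK hF dF) cF) (hF.of_le (by norm_num)) F0 dF (h.mono fun y hy e => Th_eq g K F y ▸ hy.2.1 e)
  obtain ⟨k, k0, hk⟩ := ell hg hu du
  obtain ⟨S, hS⟩ : ∃ S, ∀ᶠ z : E n × (Fin n → ℝ) in 𝓝 (x, dd F x),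
      √(bf (mat g z.1)⁻¹ z.2 z.2) < S :=
    ⟨_, (sq_cd hg dF).continuousAt.tendsto.eventually_lt_const (lt_add_one _)⟩
  obtain ⟨B, B0, hB⟩ : ∃ B ≥ (0 : ℝ), ∀ᶠ y in 𝓝 x, ∑ i, tg (mat g y)⁻¹ (dd u y) i i < B :=
    ⟨_, by positivity, (tendsto_finsetSum _ fun i _ => continuousAt_pi.1 (continuousAt_pi.1
      (tg_ct hg hu du) i) i).eventually_lt_const ((le_abs_self _).trans_lt (lt_add_one _))⟩
  obtain ⟨ε, ε0, hε⟩ := Metric.eventually_nhds_iff_ball.1 ((show ∀ᶠ z in 𝓝 (x, dd F x), z ∈ t0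
    from ht0).and (hS.and (continuousAt_snd.eventually_ne dF)))
  have c1 : ContinuousAt (fderiv ℝ u) x := hu.continuousAt_fderiv (by norm_num)
  have sk : 0 < √k / 4 := by positivity
  obtain ⟨ρ, ρ0, hρ⟩ := Metric.eventually_nhds_iff_ball.1 (h.and (hC.and (hk.and (hB.and
    ((hF.eventually (by simp)).and ((hu.eventually (by simp)).and ((cu.eventually_ne du).and
    ((Metric.tendsto_nhds.1 c1 _ sk).and (Metric.tendsto_nhds.1 cF.continuousAt _
      (half_pos ε0))))))))))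
  filter_upwards [ball_mem_nhds x (show 0 < ρ / 4 by positivity)] with c hc uc
  by_contra Fc
  have Fn : ∀ y ∈ ball x ρ, 0 ≤ u y → 0 ≤ F y := fun y hy h0 => h0.eq_or_lt.elim (fun e => by
    by_contra hn
    obtain ⟨-, -, -, -, a5, a6, a7, -⟩ := hρ y hy
    refine a7 (dd_zero (P366Z.diff2 a6) (IsLocalMax.fderiv_eq_zero ?_))
    filter_upwards [a5.continuousAt.tendsto.eventually_lt_const (not_le.1 hn),
      isOpen_ball.mem_nhds hy] with z z1 z2
    exact e ▸ not_lt.1 fun z3 => z1.not_gt ((hρ z z2).1.1 z3)) fun e => ((hρ y hy).1.1 e).le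
  have sub : closedBall x (3 / 4 * ρ) ⊆ ball x ρ := closedBall_subset_ball (by linarith)
  have c2 : ContinuousOn u (ball x ρ) := fun y hy =>
    (hρ y hy).2.2.2.2.2.1.continuousAt.continuousWithinAt
  have c3 : ContinuousOn F (ball x ρ) := fun y hy =>
    (hρ y hy).2.2.2.2.1.continuousAt.continuousWithinAt
  have cp : ∀ {A : Set (E n)} {s : Set (ℝ × ℝ)}, IsCompact A → A ⊆ ball x ρ → IsClosed s →
      IsCompact (A ∩ (fun y => (u y, F y)) ⁻¹' s) := fun a b s => a.of_isClosed_subset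
    (((c2.prodMk c3).mono b).preimage_isClosed_of_isClosed a.isClosed s) inter_subset_left
  obtain ⟨z, hz, mz⟩ := (cp (isCompact_closedBall x (3 / 4 * ρ)) sub
    (isClosed_singleton (x := (0, 0)))).exists_isMinOn ⟨x, mem_closedBall_self (by linarith),
      by simp [u0, F0]⟩ (f := fun y => ‖y - c‖) (by fun_prop)
  obtain ⟨z1, z2⟩ := Prod.ext_iff.1 hz.2
  simp only [isMinOn_iff] at mz z1 z2
  generalize hr : ‖z - c‖ = r at mz
  have r0 : 0 < r := hr ▸ norm_pos_iff.2 (sub_ne_zero.2 fun e => Fc (e ▸ z2))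
  have r1 : r < ρ / 4 := (mz x ⟨mem_closedBall_self (by linarith), by simp [u0, F0]⟩).trans_lt
    (by rwa [← dist_eq_norm, dist_comm])
  have sb : ∀ s ≤ 2 * r, closedBall c s ⊆ closedBall x (3 / 4 * ρ) := fun s hs =>
    closedBall_subset_closedBall' (by linarith [mem_ball.1 hc])
  have cl : IsClosed (Ici (0 : ℝ) ×ˢ (univ : Set ℝ)) := isClosed_Ici.prod isClosed_univ
  obtain ⟨m, m0, hm⟩ := (cp (isCompact_closedBall c (r / 2)) ((sb _ (by linarith)).trans sub)
    cl).exists_forall_le' (a := 0) (c3.mono fun y hy => sub (sb _ (by linarith) hy.1)) fun y hy => by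
      have y1 := sb _ (by linarith) hy.1
      refine (Fn y (sub y1) hy.2.1).lt_of_ne fun e => ?_
      have e2 : u y = 0 := (hy.2.1 : 0 ≤ u y).eq_or_lt.elim Eq.symm fun a =>
        absurd ((hρ y (sub y1)).1.1 a) (e ▸ lt_irrefl _)
      linarith [mz y ⟨y1, by simp [e2, ← e]⟩, mem_closedBall_iff_norm.1 hy.1]
  obtain ⟨α, hα⟩ : ∃ α, α = 1 + (2 * B + |S| * C + 2 * |S| * L * r) / (k / 2 * r ^ 2) := ⟨_, rfl⟩
  have α0 : 0 < α := hα ▸ by positivity
  obtain ⟨t, t1, t2, t3⟩ : ∃ t > (0 : ℝ), t < m ∧ t * (2 * α * r) < ε / 2 := by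
    have : ∀ᶠ t in 𝓝 (0 : ℝ), t < m ∧ t * (2 * α * r) < ε / 2 := (eventually_lt_nhds m0).and
      ((continuousAt_id.mul continuousAt_const).tendsto.eventually_lt_const (by simpa using ε0))
    obtain ⟨t, a, b⟩ := ((this.filter_mono nhdsWithin_le_nhds).and
      (self_mem_nhdsWithin (s := Ioi 0))).exists
    exact ⟨t, b, a⟩
  have b0 : ∀ y, 0 < br c α y := fun y => Real.exp_pos _
  have b1 : ∀ y, br c α y ≤ 1 := fun y => Real.exp_le_one_iff.2 (by nlinarith [sq_nonneg ‖y - c‖])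
  obtain ⟨q, hq, mq⟩ := (cp (isCompact_closedBall c (2 * r)) ((sb _ le_rfl).trans sub)
    cl).exists_isMinOn ⟨z, mem_closedBall_iff_norm.2 (by linarith), by simp [z1]⟩
    (f := fun y => F y - t * br c α y) ((c3.mono fun y hy => sub (sb _ le_rfl hy.1)).sub
      (continuous_const.mul (br_cd c α).continuous).continuousOn)
  simp only [isMinOn_iff] at mq
  have q0 := sub (sb _ le_rfl hq.1)
  have q1 := mq z ⟨mem_closedBall_iff_norm.2 (by linarith), by simp [z1]⟩
  have q2 := Fn q q0 hq.2.1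
  have q3 := mul_pos t1 (b0 z)
  have q4 : ‖q - c‖ ≤ r := by
    have : br c α z ≤ br c α q := le_of_mul_le_mul_left (by linarith) t1
    have := Real.exp_le_exp.1 this
    exact abs_le_of_sq_le_sq' (by rw [hr] at this; nlinarith) r0.le |>.2
  have q5 : r / 2 ≤ ‖q - c‖ := by
    by_contra hn
    have := hm q ⟨mem_closedBall_iff_norm.2 (not_le.1 hn).le, hq.2⟩
    nlinarith [b1 q]
  obtain ⟨⟨-, -, a1⟩, a2, a3, a4, a5, a6, a7, -, a9⟩ := hρ q q0
  obtain ⟨e1, e2⟩ := theta_br (g := g) (K := K) (a5.of_le (by norm_num)) c α t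
  generalize hp : dd (fun y => F y - t * br c α y) q = p at e1
  replace e2 := e2 p hp.symm
  have d1 : dist (q, p) (q, dd F q) ≤ t * br c α q * (2 * α * r) := by
    rw [Prod.dist_eq, dist_self, max_eq_right dist_nonneg, e1]
    refine (dist_pi_le_iff (by have := b0 q; positivity)).2 fun i => ?_
    rw [Real.dist_eq, add_sub_cancel_left, abs_mul, abs_of_pos (mul_pos t1 (b0 q)),
      abs_mul, abs_of_pos (by positivity : 0 < 2 * α)]
    have := b0 q
    gcongr
    exact (PiLp.norm_apply_le (q - c) i).trans q4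
  have d2 : (q, p) ∈ ball (x, dd F x) ε := by
    have := mul_le_mul_of_nonneg_right (mul_le_of_le_one_right t1.le (b1 q))
      (by positivity : 0 ≤ 2 * α * r)
    exact mem_ball.2 (by linarith [dist_triangle (q, p) (q, dd F q) (x, dd F x)])
  obtain ⟨g1, g2, g3⟩ := hε _ d2
  have cG : ContDiffAt ℝ 2 (fun y => F y - t * br c α y) q := (a5.of_le (by norm_num)).sub
    (contDiffAt_const.mul ((br_cd c α).contDiffAt.of_le (by norm_num)))
  have nb : closedBall c (2 * r) ∈ 𝓝 q :=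
    closedBall_mem_nhds_of_mem (mem_ball_iff_norm.2 (by linarith))
  have uq : u q = 0 := (hq.2.1 : 0 ≤ u q).eq_or_lt.elim Eq.symm fun a => by
    refine absurd (hp ▸ dd_zero (P366Z.diff2 cG) (IsLocalMin.fderiv_eq_zero ?_)) g3
    filter_upwards [nb, a6.continuousAt.tendsto.eventually_const_lt a] with y y1 y2
    exact mq y ⟨y1, y2.le, trivial⟩
  obtain ⟨⟨l, l0, e3⟩, k1⟩ := touch (K := K) (hg.pos q) cG a6 (hp ▸ g3) a7
    (mem_of_superset nb fun y y1 y2 => mq y ⟨y1, (uq ▸ y2 : 0 < u y).le, trivial⟩)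
  have k2 := hL.dist_le_mul _ g1 _ (hε _ (ball_subset_ball (half_le_self ε0.le) a9)).1
  have k3 : ‖u c - u q - fderiv ℝ u q (c - q)‖ ≤ √k / 2 * ‖c - q‖ :=
    (convex_ball x ρ).norm_image_sub_le_of_norm_fderiv_le' (fun y hy =>
      P366Z.diff2 (hρ y hy).2.2.2.2.2.1) (fun y hy => by
        have := dist_triangle_right (fderiv ℝ u y) (fderiv ℝ u q) (fderiv ℝ u x)
        rw [dist_eq_norm] at this
        linarith [(hρ y hy).2.2.2.2.2.2.2.1, (hρ q q0).2.2.2.2.2.2.2.1]) q0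
      (ball_subset_ball (by linarith) hc)
  rw [uc, uq, sub_zero, zero_sub, norm_neg, ← neg_sub q, map_neg, norm_neg, norm_neg,
    ← dd_dot (P366Z.diff2 a6) (q - c).ofLp, Real.norm_eq_abs] at k3
  have k4 := pow_le_pow_left₀ (abs_nonneg _) k3 2
  rw [sq_abs, mul_pow, div_pow, Real.sq_sqrt k0.le] at k4
  have k5 := num (C := C) (L := L) (T := qf (tg (mat g q)⁻¹ (dd u q)) (q - c).ofLp)
    (by positivity : 0 < k / 2 * r ^ 2) B0 C0 L.coe_nonneg r0.le
    (Real.sqrt_pos.2 (bf_pos (hg.inv_pos q) g3)) (g2.le.trans (le_abs_self S)) hα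
    (by nlinarith [a3 (q - c), pow_le_pow_left₀ (by positivity) q5 2]) a4.le
  rw [← tg_smul _ _ l0, ← e3, hp] at k5
  have k6 := mul_lt_mul_of_pos_left k5 (mul_pos t1 (b0 q))
  have k7 := mul_le_mul_of_nonneg_left d1 L.coe_nonneg
  have k8 := mul_le_mul_of_nonneg_left (show F q ≤ t * br c α q by linarith) C0
  rw [Real.dist_eq] at k2
  rw [mul_div_assoc] at e2
  linarith [a1 uq, a2 q2, le_abs_self (Th g K F (q, p) - Th g K F (q, dd F q))]

open P366M in
/-- **The strong maximum principle** for the null expansion. -/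
theorem hopf {M : Type} [Mf0 n M] {g K : Fld n M} {F u : M → ℝ} {x : M} (hg : Met g) (hK : SmT K)
    (hF : CAt 3 F x) (hu : CAt 2 u x) (F0 : F x = 0) (u0 : u x = 0) (dF : ∃ i, pd i F x ≠ 0)
    (du : ∃ i, pd i u x ≠ 0) (h : ∀ᶠ z in 𝓝 x, (0 < u z → 0 < F z) ∧
      (F z = 0 → thetaPlus g K F z ≤ 0) ∧ (u z = 0 → 0 ≤ thetaPlus g K u z)) :
    ∀ᶠ z in 𝓝 x, u z = 0 → F z = 0 := by
  have he := ch_mem x
  have ev : ∀ {f : M → ℝ}, CAt 2 f x → ∀ᶠ y in 𝓝 (pt x), P366.Stmt.thetaPlus (rep (ch x) g)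
      (rep (ch x) K) (loc (ch x) f) y = thetaPlus g K f ((ch x).symm y) := fun hf =>
    (ContDiffAt.eventually hf (by simp)).mono fun y hy => thetaPlus_rep hg he K
      (cAt_of_loc two_le_oo he hy)
  refine ev_pt.2 (hopf0 (F := loc (ch x) F) (u := loc (ch x) u) (hg.rep he) (hK _ he) hF hu ((loc_pt F x).trans F0) ((loc_pt u x).trans u0)
    (fun e => dF.elim fun i hi => hi (congrFun e i)) (fun e => du.elim fun i hi => hi (congrFun e i))
    ?_)
  filter_upwards [ev_pt.1 h, ev (ContDiffAt.of_le hF (by norm_num)), ev hu] with y y1 y2 y3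
  rwa [y2, y3]

end Vale.Agent.P366HP
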