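import Vale.Agent.P366HP.Pan3

/-!
# P366HP: the row PAN
-/

open MeasureTheory Metric Filter Topology Set
open scoped ContDiff NNReal
open Vale.Agent.P366.Stmt Vale.Agent.P366Z
open Vale.Agent.P366F (aa Dat)
open Vale.Agent.P366XR (Kid)
open Vale.Agent.P366M (Mfe ch pt loc CAt ch_mem ev_pt symm_pt)

noncomputable section

namespace Vale.Agent.P366HP

variable {n : ℕ} {y0 y : E n} {g K : Field n} {N N' s F φ : E n → ℝ} {X X' : Fin n → E n → ℝ}

theorem ae_lev (hF : Smooth F) : ∀ᵐ y, F y = 0 → ∀ i, pd i F y = 0 := by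
  filter_upwards [P366M.ll_ae_diff ((ll_sm hF).max_const 0)] with y d h i
  have a : IsLocalMin (fun y => max (F y) 0) y :=
    .of_forall fun z => by simp only [h, max_self, le_max_right]
  have b : IsLocalMin (fun y => max (F y) 0 - F y) y :=
    .of_forall fun z => by simp only [h, max_self, sub_self, sub_nonneg, le_max_left]
  have c := b.fderiv_eq_zero
  rw [fderiv_fun_sub d (hF.diff y), a.fderiv_eq_zero, zero_sub, neg_eq_zero] at c
  rw [pd_eq (hF.diff y), c, zero_apply]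

theorem int_lev (hF : Smooth F) {h h' : E n → ℝ} {i : Fin n} (e : ∀ y, 0 < F y → h y = h' y)
    (z : ∀ y, pd i F y = 0 → h y = 0) : ∫ y in {y | 0 ≤ F y}, h y = ∫ y in {y | 0 < F y}, h' y := by
  rw [← integral_indicator (isClosed_le continuous_const hF.cont).measurableSet,
    ← integral_indicator (isOpen_lt continuous_const hF.cont).measurableSet]
  refine integral_congr_ae ((ae_lev hF).mono fun y k => ?_)
  rcases lt_trichotomy 0 (F y) with l | l | l
  · rw [indicator_of_mem (show y ∈ {y | 0 ≤ F y} from l.le),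
      indicator_of_mem (show y ∈ {y | 0 < F y} from l), e y l]
  · rw [indicator_of_mem (show y ∈ {y | 0 ≤ F y} from l.le),
      indicator_of_notMem (show y ∉ {y | 0 < F y} from l.not_lt), z y (k l.symm i)]
  · rw [indicator_of_notMem (show y ∉ {y | 0 ≤ F y} from l.not_ge),
      indicator_of_notMem (show y ∉ {y | 0 < F y} from l.not_gt)]

theorem pd_out (h : y ∉ tsupport φ) (i : Fin n) : pd i φ y = 0 :=
  (pd_congr (notMem_tsupport_iff_eventuallyEq.1 h) i).trans (pd_const 0 i y)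

theorem pf_out (h : y ∉ tsupport φ) (g : Field n) (p : Fin n → E n → ℝ) : pf g p φ y = 0 := by
  simp only [pf, pd_out h, mul_zero, Finset.sum_const_zero, zero_mul]

/-- the same germ -/
def Gm (N N' : E n → ℝ) (X X' : Fin n → E n → ℝ) (y : E n) : Prop :=
  N =ᶠ[𝓝 y] N' ∧ ∀ i, X i =ᶠ[𝓝 y] X' i

theorem Gm.pp (h : Gm N N' X X' y) (K : Field n) (i : Fin n) :
    P366F.pp K N X i y = P366F.pp K N' X' i y := by
  simp only [P366F.pp, pd_congr h.1, fun i => (h.2 i).eq_of_nhds]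

theorem Gm.cd (h : Gm N N' X X' y) (g : Field n) (i j : Fin n) :
    P366P.cd g X i j y = P366P.cd g X' i j y := by
  simp only [P366P.cd, pd_congr (h.2 i), fun i => (h.2 i).eq_of_nhds]

theorem Gm.aa (h : Gm N N' X X' y) (g K : Field n) (i j : Fin n) :
    aa g K N X y i j = aa g K N' X' y i j := by
  simp only [P366F.aa, h.cd, h.1.eq_of_nhds]

theorem Gm.kid (h : Gm N N' X X' y) (k : Kid g K N X y) : Kid g K N' X' y := by
  simpa only [Kid, h.cd, h.1.eq_of_nhds] using k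

theorem Gm.pf (h : Gm N N' X X' y) (g K : Field n) (φ : E n → ℝ) :
    pf g (P366F.pp K N X) φ y = pf g (P366F.pp K N' X') φ y := by
  simp only [P366HP.pf, h.pp]

theorem ext_lip {A : Set (E n)} (h : LocallyLipschitzOn A N) (h0 : y0 ∈ A) :
    ∃ N', Lip N' ∧ ∀ᶠ y in 𝓝 y0, y ∈ A → N y = N' y := by
  obtain ⟨L, t, ht, hL⟩ := h h0
  obtain ⟨N', h1, h2⟩ := hL.extend_real
  exact ⟨N', ⟨L, h1⟩, (eventually_nhdsWithin_iff.1 (show ∀ᶠ y in 𝓝[A] y0, y ∈ t from ht)).mono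
    fun y k k' => h2 (k k')⟩

theorem two (hg : Met g) (hs : DifferentiableAt ℝ s y0) (s0 : s y0 = 0) (ds : ∃ i, pd i s y0 ≠ 0)
    (hF : DifferentiableAt ℝ F y0) (F0 : F y0 = 0) (dF : ∃ i, pd i F y0 ≠ 0)
    (ins : ∀ᶠ y in 𝓝 y0, 0 < s y → 0 < F y) {s' : E n → ℝ} (k1 : DifferentiableAt ℝ s' y0)
    (k2 : s' y0 = 0) (k3 : ∃ i, pd i s' y0 ≠ 0) (k4 : ∀ᶠ y in 𝓝 y0, 0 < s' y → 0 < F y ∧ s y < 0) :
    False := by
  obtain ⟨ξ, m, hm, -, -, -, h4, -⟩ := frame hg hs ds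
  obtain ⟨i, k3⟩ := k3
  have w0 : ξ (-m) < 0 := by rw [map_neg, hm]; exact neg_one_lt_zero
  have a := side hm hF F0 dF (fun w hw => (((tend_sc y0 w).eventually ins).and
    (ray_pos hs s0 (h4 w hw))).mono fun _ k => (k.1 k.2).le) w0
  have b := side hm (F := fun y => -s' y) k1.neg (by rw [k2, neg_zero])
    ⟨i, by rwa [pd_neg, neg_ne_zero]⟩ (fun w hw => (((tend_sc y0 w).eventually k4).and
      (ray_pos hs s0 (h4 w hw))).mono fun δ h => neg_nonneg.2
        (not_lt.1 fun k => (h.1 k).2.not_gt h.2)) w0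
  obtain ⟨δ, c1, c2, c3⟩ := (a.and (b.and ((tend_sc y0 (-m)).eventually k4))).exists
  exact (c3 (neg_neg_iff_pos.1 c2)).1.not_gt c1

theorem pan_aux {M : Type} [Mfe n M] {Z : Dat n M} {W : Set M} (hZ : Z.Ok) (hW : Z.Wk) (hc : Z.Cp W)
    {x : M} {s : M → ℝ} {p0 : Fin n → ℝ} (h : Z.Tc W x s p0) {t : ℝ} (t0 : 0 ≤ t)
    (ht : 1 ≤ t ∨ ∃ s' : M → ℝ, CAt ∞ s' x ∧ s' x = 0 ∧ (∃ i, P366M.pd i s' x ≠ 0) ∧
      ∀ᶠ z in 𝓝 x, 0 < s' z → z ∈ W ∧ s z < 0) :
    ∑ i, p0 i * P366M.nrm Z.D.g s i x ≤ Z.κ * t := by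
  have he := ch_mem x
  have hg := Z.D.met.rep he
  have hF : Smooth (loc (ch x) Z.D.F) := Z.D.dom.1 _ he
  have smK := Z.D.smK _ he
  have m0 : pt x ∈ Z.Om (ch x) := by simpa only [mem_ofPred_eq, symm_pt] using h.om
  obtain ⟨N', hN, eN⟩ := ext_lip (hZ.lipN _ he) m0
  choose X' hX eX using fun i => ext_lip (hZ.lipX _ he i) m0
  have e0 := eN.and (eventually_all.2 eX)
  have gm : ∀ᶠ y in 𝓝 (pt x), 0 < loc (ch x) Z.D.F y → Gm (Z.Nc (ch x)) N' (Z.Xc (ch x)) X' y :=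
    e0.eventually_nhds.mono fun y k k' => by
      have := k.and (continuousAt_const.eventually_lt hF.cont.continuousAt k')
      exact ⟨this.mono fun z l => l.1.1 l.2.le, fun i => this.mono fun z l => l.1.2 i l.2.le⟩
  have hs : DifferentiableAt ℝ (loc (ch x) s) (pt x) := ContDiffAt.differentiableAt h.sm (by simp)
  have s0 : loc (ch x) s (pt x) = 0 := (P366M.loc_pt s x).trans h.s0
  have ins := ev_pt.1 h.ins
  have ins' : ∀ᶠ y in 𝓝 (pt x), 0 < loc (ch x) s y → 0 < loc (ch x) Z.D.F y :=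
    ins.mono fun y k k' => hZ.sub _ (hc.sub (k k'))
  have gm' : ∀ᶠ y in 𝓝[{y | 0 < loc (ch x) s y}] pt x, Gm (Z.Nc (ch x)) N' (Z.Xc (ch x)) X' y :=
    eventually_nhdsWithin_iff.2 ((gm.and ins').mono fun y k k' => k.1 (k.2 k'))
  have tp := fun i => (h.tp i).congr' (gm'.mono fun y k => k.pp _ i)
  simp only [← P366M.nrm_pt]
  rcases h.om.eq_or_lt with F0 | F0
  · have F1 : loc (ch x) Z.D.F (pt x) = 0 := (P366M.loc_pt _ x).trans F0.symm
    obtain ⟨i, dF⟩ := Z.D.dom.2.1 x F0.symm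
    rcases ht with k | ⟨s', k1, k2, k3, k4⟩
    · refine (panA hg (fun i => (bm_pd _ hN i).add (bm_cont _ (continuous_finsetSum _ fun j _ =>
        (smK i j).cont.mul (hX j).cont))) hs s0 h.ds hF F1 ⟨i, dF⟩ ins' tp hZ.κ0.le
        (gm.and ((hF.pd i).cont.continuousAt.eventually_ne dF)) fun φ h1 h2 h3 h4 => ?_).trans
        (le_mul_of_one_le_right hZ.κ0.le k)
      have z : ∀ y, pd i (loc (ch x) Z.D.F) y = 0 → y ∉ tsupport φ := fun y l l' => (h3 l').2 l
      rw [← int_lev hF (h := Z.pφ (ch x) φ) (fun y l => ?_) fun y l => pf_out (z y l) _ _,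
        ← int_lev hF (fun _ _ => rfl) fun y l => by rw [gn_zero (pd_out (z y l)), zero_mul]]
      · exact hW.db1 _ he φ h1 h2 h4
      · by_cases l' : y ∈ tsupport φ
        · exact ((h3 l').1 l).pf _ _ φ
        · exact (pf_out l' _ _).trans (pf_out l' _ _).symm
    · exact (two hg hs s0 h.ds (hF.diff _) F1 ⟨i, dF⟩ ins' (ContDiffAt.differentiableAt k1 (by simp))
        ((P366M.loc_pt s' x).trans k2) k3 ((ev_pt.1 k4).mono fun y l l' =>
          ⟨hZ.sub _ (hc.sub (l l').1), (l l').2⟩)).elim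
  · have F1 : ∀ᶠ y in 𝓝 (pt x), 0 < loc (ch x) Z.D.F y := continuousAt_const.eventually_lt
      hF.cont.continuousAt (F0.trans_eq (P366M.loc_pt _ x).symm)
    have B := F1.and (gm.mp (F1.mono fun y k k' => k' k))
    refine panB (S := {y | (ch x).symm y ∉ W}) hg smK (P366M.rep_sy Z.D.syK _) hN hX hs s0 h.ds B
      ((hW.wk _ he).mono fun y k l => l.2.kid (k l.1)) ((B.and ins).mono fun y k l => ?_)
      (B.mono fun y k => ⟨?_, ?_⟩) (fun i => ?_) tp
      (fun i j => (h.ta i j).imp fun c k => k.congr' (gm'.mono fun y k => k.aa _ _ i j))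
      (hc.op.preimage (P366M.cont_symm he)).isClosed_compl.measurableSet hZ.κ0.le t0
      (fun φ h1 h2 h3 h4 => ?_) (ht.imp_right fun ⟨s', k1, k2, k3, k4⟩ => ⟨loc (ch x) s',
        ContDiffAt.differentiableAt k1 (by simp), (P366M.loc_pt s' x).trans k2, k3,
        (ev_pt.1 k4).mono fun y l l' => ⟨not_not.2 (l l').1, (l l').2⟩⟩)
    · have q := hZ.eq _ he y (hc.sub (k.2 l))
      exact ⟨not_not.2 (k.2 l), k.1.2.kid q.kil,
        (q.smN.differentiableAt (by simp)).congr_of_eventuallyEq k.1.2.1.symm, fun i =>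
        ((q.smX i).differentiableAt (by simp)).congr_of_eventuallyEq (k.1.2.2 i).symm⟩
    · exact k.2.1.eq_of_nhds ▸ hZ.nn _ k.1.le
    · simp only [P366RB.sq, ← k.2.1.eq_of_nhds, fun i => ((k.2.2 i).eq_of_nhds).symm,
        P366M.quad_rep he]
      exact sub_nonneg.1 (hZ.le _ k.1.le)
    · rw [← B.self_of_nhds.2.1.eq_of_nhds, ← (B.self_of_nhds.2.2 i).eq_of_nhds, P366M.nrm_pt]
      exact (P366M.repV_pt _ i x).trans ((h.eq i).trans (congrArg (· * _) (P366M.loc_pt _ x).symm))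
    · have : pf (Z.g (ch x)) (P366F.pp (Z.K (ch x)) N' X') φ = Z.pφ (ch x) φ := funext fun y => by
        by_cases l' : y ∈ tsupport φ
        · exact ((h3 l').2.pf _ _ φ).symm
        · exact (pf_out l' _ _).trans (pf_out l' _ _).symm
      rw [this]
      exact hW.db2 W hc.op hc.con hc.sub hc.far _ he φ h1 h2 (fun y l => (h3 l).1) h4

/-- **PAN** -/
theorem pan : P366F.PAN := fun _ _ _ _ _ hZ hW hc =>
  ⟨fun _ _ _ h => (pan_aux hZ hW hc h zero_le_one (.inl le_rfl)).trans_eq (mul_one _),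
    fun _ _ _ s' h k1 k2 k3 k4 _ =>
      (pan_aux hZ hW hc h le_rfl (.inr ⟨s', k1, k2, k3, k4⟩)).trans_eq (mul_zero _)⟩

end Vale.Agent.P366HP
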