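import Vale.Agent.P366.T1.B526b
import Vale.Agent.P366Z.Calc

/-!
# P366HP: tools for the strong maximum principle for the null expansion
-/

open Metric Filter Topology Set Matrix
open scoped ContDiff
open Vale.Agent.P366.Stmt Vale.Agent.P366.T1.B526

noncomputable section

namespace Vale.Agent.P366HP

variable {n : ℕ} {g K : Field n} {F G u : E n → ℝ} {x : E n} {h : Matrix (Fin n) (Fin n) ℝ}
  {p : Fin n → ℝ}

theorem bf_smul (h : Matrix (Fin n) (Fin n) ℝ) (p : Fin n → ℝ) {l : ℝ} (hl : 0 < l) :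
    √(bf h (l • p) (l • p)) = l * √(bf h p p) := by
  rw [show bf h (l • p) (l • p) = l ^ 2 * bf h p p by
    simp only [bf, mulVec_smul, dotProduct_smul, smul_dotProduct, smul_eq_mul]; ring,
    Real.sqrt_mul (sq_nonneg _), Real.sqrt_sq hl.le]

theorem tg_smul (h : Matrix (Fin n) (Fin n) ℝ) (p : Fin n → ℝ) {l : ℝ} (hl : 0 < l) :
    tg h (l • p) = tg h p := by
  have : nv h (l • p) = nv h p := funext fun i => by
    rw [nv, nv, bf_smul h p hl, mulVec_smul, Pi.smul_apply, smul_eq_mul, mul_div_mul_left _ _ hl.ne']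
  rw [tg, tg, this]

theorem theta_eq (g K : Field n) (F : E n → ℝ) (x : E n) : thetaPlus g K F x =
    tt (mat g x)⁻¹ (dd F x) (hess g F x) / √(bf (mat g x)⁻¹ (dd F x) (dd F x)) +
      tt (mat g x)⁻¹ (dd F x) (K x) := by
  rw [thetaPlus, trS_eq, trS_eq, covNorm_eq]

theorem dd_ne (hF : DifferentiableAt ℝ F x) (h0 : dd F x ≠ 0) (c : ℝ) :
    ∃ e, fderiv ℝ F x e = c := by
  have k : dd F x ⬝ᵥ dd F x ≠ 0 := fun e => h0 (dotProduct_self_eq_zero.1 e)
  refine ⟨WithLp.toLp 2 ((c / (dd F x ⬝ᵥ dd F x)) • dd F x), ?_⟩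
  rw [← dd_dot hF, dotProduct_smul, smul_eq_mul, div_mul_cancel₀ _ k]

theorem dd_zero (hF : DifferentiableAt ℝ F x) (h0 : fderiv ℝ F x = 0) : dd F x = 0 :=
  funext fun i => by simp [dd, pd_eq hF, h0]

/-- **The touching lemma.** -/
theorem touch (hp : (mat g x).PosDef) (hG : ContDiffAt ℝ 2 G x) (hu : ContDiffAt ℝ 2 u x)
    (G0 : dd G x ≠ 0) (u0 : dd u x ≠ 0) (loc : ∀ᶠ y in 𝓝 x, u x < u y → G x ≤ G y) :
    (∃ l > (0 : ℝ), dd G x = l • dd u x) ∧ thetaPlus g K u x ≤ thetaPlus g K G x := by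
  have dG := P366Z.diff2 hG
  have du := P366Z.diff2 hu
  obtain ⟨e, he⟩ := dd_ne du u0 1
  obtain ⟨l0, k1, k2⟩ := touch_jet hG hu he loc
  generalize fderiv ℝ G x e = l at l0 k1 k2
  have e1 : dd G x = l • dd u x := funext fun i => by
    simp only [dd, Pi.smul_apply, smul_eq_mul, pd_eq dG, pd_eq du, k1]
  have l1 : 0 < l := l0.lt_of_ne fun e => G0 (by rw [e1, ← e, zero_smul])
  refine ⟨⟨l, l1, e1⟩, ?_⟩
  have := tt_ge (A := fun i j => l * hess g u x i j) (B := hess g G x) hp.inv u0 fun X hX => by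
    rw [qf_smul, qf_hess, qf_hess, e1, qc_smul, qf_fh hu, qf_fh hG]
    linarith [k2 _ ((dd_dot du X).symm.trans hX)]
  rw [tt_smul] at this
  rw [theta_eq, theta_eq, e1, bf_smul _ _ l1, tt, tt, tt, tt, tg_smul _ _ l1, ← tt, ← tt, ← tt,
    ← div_div]
  gcongr
  exact (le_div_iff₀' l1).2 this

/-- A Lipschitz function which is nonpositive on a hypersurface. -/
theorem lin_bd {f : E n → ℝ} (hf : ContDiffAt ℝ 1 f x) (hF : ContDiffAt ℝ 1 F x) (h0 : F x = 0)
    (F0 : dd F x ≠ 0) (hz : ∀ᶠ y in 𝓝 x, F y = 0 → f y ≤ 0) :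
    ∃ C ≥ (0 : ℝ), ∀ᶠ y in 𝓝 x, 0 ≤ F y → f y ≤ C * F y := by
  obtain ⟨L, t, ht, hL⟩ := hf.exists_lipschitzOnWith
  obtain ⟨e, he⟩ := dd_ne (hF.differentiableAt one_ne_zero) F0 2
  have c : ContinuousAt (fun y => fderiv ℝ F y e) x :=
    (hF.continuousAt_fderiv one_ne_zero).clm_apply continuousAt_const
  have c1 : ∀ᶠ y in 𝓝 x, 1 < fderiv ℝ F y e := c.tendsto.eventually_const_lt (by linarith)
  obtain ⟨δ, δ0, hδ⟩ := Metric.eventually_nhds_iff_ball.1 (hz.and ((show ∀ᶠ y in 𝓝 x, y ∈ t from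
    ht).and ((hF.eventually (by simp)).and c1)))
  refine ⟨L * ‖e‖, by positivity, ?_⟩
  have c2 : ContinuousAt (fun y => dist y x + F y * ‖e‖) x :=
    (continuousAt_id.dist continuousAt_const).add (hF.continuousAt.mul continuousAt_const)
  filter_upwards [c2.tendsto.eventually_lt_const (show _ < δ by simpa [h0] using δ0)] with y hy y0
  have m : ∀ s ∈ Icc 0 (F y), y - s • e ∈ ball x δ := fun s hs => by
    have := dist_triangle (y - s • e) y x
    rw [dist_eq_norm _ y, sub_sub_cancel_left, norm_neg, norm_smul, Real.norm_of_nonneg hs.1]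
      at this
    exact mem_ball.2 (by nlinarith [hs.2, norm_nonneg e])
  have d : ∀ s ∈ Icc 0 (F y), HasDerivAt (fun s => F (y - s • e))
      (fderiv ℝ F (y - s • e) (-e)) s := fun s hs => by
    have := ((hδ _ (m s hs)).2.2.1.differentiableAt one_ne_zero).hasFDerivAt.comp_hasDerivAt s
      (((hasDerivAt_id s).smul_const e).const_sub y)
    rw [one_smul] at this
    exact this
  have c3 : ContinuousOn (fun s => F (y - s • e)) (Icc 0 (F y)) := fun s hs =>
    (d s hs).continuousAt.continuousWithinAt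
  have k := (convex_Icc 0 (F y)).image_sub_le_mul_sub_of_deriv_le c3 (fun s hs =>
    (d s (interior_subset hs)).differentiableAt.differentiableWithinAt) (C := -1) (fun s hs => by
      rw [(d s (interior_subset hs)).deriv, map_neg]
      linarith [(hδ _ (m s (interior_subset hs))).2.2.2]) 0 (left_mem_Icc.2 y0) _
    (right_mem_Icc.2 y0) y0
  obtain ⟨s, hs, e0⟩ := intermediate_value_Icc' y0 c3 (show (0 : ℝ) ∈ _ from
    ⟨by simp only [zero_smul, sub_zero] at k ⊢; linarith, by simpa using y0⟩)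
  have := hL.dist_le_mul y (by simpa using (hδ _ (m 0 (left_mem_Icc.2 y0))).2.1) _
    (hδ _ (m s hs)).2.1
  rw [dist_eq_norm y, sub_sub_cancel, norm_smul, Real.norm_of_nonneg hs.1, Real.dist_eq] at this
  have k2 := mul_le_mul_of_nonneg_left hs.2 (by positivity : 0 ≤ L * ‖e‖)
  linarith [le_abs_self (f y - f (y - s • e)), (hδ _ (m s hs)).1 e0]

/-- the null expansion as a function of the point and of the differential -/
def Th (g K : Field n) (F : E n → ℝ) (z : E n × (Fin n → ℝ)) : ℝ :=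
  tt (mat g z.1)⁻¹ z.2 (fun i j => fh F z.1 i j - ∑ k, chr g k i j z.1 * z.2 k) /
    √(bf (mat g z.1)⁻¹ z.2 z.2) + tt (mat g z.1)⁻¹ z.2 (K z.1)

theorem bf_cd (hg : P366Z.Met g) :
    ContDiff ℝ 1 fun z : E n × (Fin n → ℝ) => bf (mat g z.1)⁻¹ z.2 z.2 := by
  have := fun i j => (hg.sm_up i j).of_le (show (1 : WithTop ℕ∞) ≤ ∞ by simp)
  simp only [bf, dotProduct, mulVec]
  exact ContDiff.sum fun i _ => (contDiff_apply ℝ ℝ i).comp contDiff_snd |>.mul
    (ContDiff.sum fun j _ => ((this i j).comp contDiff_fst).mul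
      ((contDiff_apply ℝ ℝ j).comp contDiff_snd))

theorem sq_cd (hg : P366Z.Met g) (hp : p ≠ 0) :
    ContDiffAt ℝ 1 (fun z : E n × (Fin n → ℝ) => √(bf (mat g z.1)⁻¹ z.2 z.2)) (x, p) :=
  (bf_cd hg).contDiffAt.sqrt (bf_pos (hg.inv_pos x) hp).ne'

theorem tg_cd (hg : P366Z.Met g) (hp : p ≠ 0) (i j : Fin n) :
    ContDiffAt ℝ 1 (fun z : E n × (Fin n → ℝ) => tg (mat g z.1)⁻¹ z.2 i j) (x, p) := by
  have a := fun i j => (((hg.sm_up i j).of_le (show (1 : WithTop ℕ∞) ≤ ∞ by simp)).comp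
    (contDiff_fst (F := Fin n → ℝ))).contDiffAt (x := (x, p))
  have b : ∀ i, ContDiffAt ℝ 1 (fun z : E n × (Fin n → ℝ) => nv (mat g z.1)⁻¹ z.2 i) (x, p) :=
    fun i => (ContDiffAt.sum (s := Finset.univ) fun j _ => (a i j).mul
      ((contDiff_apply ℝ ℝ j).comp contDiff_snd).contDiffAt).div (sq_cd hg hp)
      (Real.sqrt_pos.2 (bf_pos (hg.inv_pos x) hp)).ne'
  exact (a i j).sub ((b i).mul (b j))

theorem Th_cd (hg : P366Z.Met g) (hK : ∀ i j, Smooth fun x => K x i j)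
    (hF : ContDiffAt ℝ 3 F x) (hp : p ≠ 0) : ContDiffAt ℝ 1 (Th g K F) (x, p) := by
  have a := fun {f : E n → ℝ} (hf : ContDiffAt ℝ 1 f x) =>
    hf.comp (f := Prod.fst) (x, p) contDiffAt_fst
  refine ((ContDiffAt.sum fun i _ => ContDiffAt.sum fun j _ => (tg_cd hg hp i j).mul
    ((a (P366Z.contDiffAt_pd (P366Z.contDiffAt_pd (k := 2) hF (by norm_num) j) (by norm_num) i)).sub
      (ContDiffAt.sum fun k _ => (a ((hg.sm_chr k i j).c1 x)).mul
        ((contDiff_apply ℝ ℝ k).comp contDiff_snd).contDiffAt))).div (sq_cd hg hp)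
      (Real.sqrt_pos.2 (bf_pos (hg.inv_pos x) hp)).ne').add
    (ContDiffAt.sum fun i _ => ContDiffAt.sum fun j _ => (tg_cd hg hp i j).mul (a ((hK i j).c1 x)))

theorem Th_eq (g K : Field n) (F : E n → ℝ) (x : E n) :
    thetaPlus g K F x = Th g K F (x, dd F x) := theta_eq g K F x

theorem dd_cd {m k : WithTop ℕ∞} (hF : ContDiffAt ℝ m F x) (hk : k + 1 ≤ m) :
    ContDiffAt ℝ k (fun y => (y, dd F y)) x :=
  contDiffAt_id.prodMk (contDiffAt_pi.2 fun i => P366Z.contDiffAt_pd hF hk i)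

theorem ell0 {T : E n → Fin n → Fin n → ℝ} {q : E n → Fin n → ℝ} (hT : ContinuousAt T x)
    (hq : ContinuousAt q x) (h : ∀ w ≠ 0, 0 < qf (T x) w + (q x ⬝ᵥ w) ^ 2) : ∃ c > (0 : ℝ),
    ∀ᶠ y in 𝓝 x, ∀ w : E n, c * ‖w‖ ^ 2 ≤ qf (T y) w + (q y ⬝ᵥ w) ^ 2 := by
  have ct : ∀ w : E n, ContinuousAt (fun z : E n × E n =>
      qf (T z.1) z.2 + (q z.1 ⬝ᵥ z.2) ^ 2) (x, w) := fun w => by
    have a : ContinuousAt (fun z : E n × E n => T z.1) (x, w) :=
      ContinuousAt.comp (g := T) (f := Prod.fst) (x := (x, w)) hT continuousAt_fst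
    have b : ContinuousAt (fun z : E n × E n => q z.1) (x, w) :=
      ContinuousAt.comp (g := q) (f := Prod.fst) (x := (x, w)) hq continuousAt_fst
    have c : ∀ i, ContinuousAt (fun z : E n × E n => z.2 i) (x, w) := fun i => by fun_prop
    exact ContinuousAt.add (tendsto_finsetSum _ fun i _ => tendsto_finsetSum _ fun j _ =>
      ((continuousAt_pi.1 (continuousAt_pi.1 a i) j).mul (c i)).mul (c j))
      (ContinuousAt.pow (tendsto_finsetSum _ fun i _ => (continuousAt_pi.1 b i).mul (c i)) 2)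
  obtain ⟨c, c0, hc⟩ := (isCompact_sphere (0 : E n) 1).exists_forall_le' (a := 0)
    (f := fun w : E n => qf (T x) w + (q x ⬝ᵥ w) ^ 2) (fun w _ =>
    ((ct w).comp (f := fun w => (x, w)) (by fun_prop)).continuousWithinAt) fun w hw =>
      h _ fun e => by
        have : w = 0 := by ext i; simp [e]
        simp [this] at hw
  refine ⟨c / 2, by positivity, ((isCompact_sphere (0 : E n) 1).eventually_forall_of_forall_eventually
    (x₀ := x) (P := fun y w => c / 2 < qf (T y) w + (q y ⬝ᵥ w) ^ 2) fun w hw =>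
      (ct w).tendsto.eventually_const_lt ((half_lt_self c0).trans_le (hc w hw))).mono
    fun y hy w => ?_⟩
  rcases eq_or_ne w 0 with rfl | w0
  · simp [qf]
  have r := norm_pos_iff.2 w0
  have := mul_le_mul_of_nonneg_right (hy (‖w‖⁻¹ • w) (by simp [norm_smul, r.ne'])).le
    (sq_nonneg ‖w‖)
  refine this.trans_eq ?_
  have q1 : ∀ X, qf (T y) X = X ⬝ᵥ (Matrix.of (T y) *ᵥ X) := qf_eq (Matrix.of (T y))
  simp only [q1, WithLp.ofLp_smul, mulVec_smul, dotProduct_smul, smul_dotProduct, smul_eq_mul]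
  field_simp

theorem tg_pos (hp : h.PosDef) (p0 : p ≠ 0) {w : Fin n → ℝ} (hw : w ≠ 0) :
    0 < qf (tg h p) w + (p ⬝ᵥ w) ^ 2 := by
  have b := bf_pos hp p0
  have k := bf_sub_smul h p w (bf h p w / bf h p p) hp.1
  rw [qf_eq, tg_form hp.1, div_pow, Real.sq_sqrt b.le]
  generalize hs : bf h p w / bf h p p = s at k
  rw [(div_eq_iff b.ne').1 hs] at k ⊢
  have e : (s * bf h p p) ^ 2 / bf h p p = s ^ 2 * bf h p p := by field_simp
  by_cases h0 : w - s • p = 0
  · have e2 := sub_eq_zero.1 h0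
    have s0 : s ≠ 0 := fun e => hw (by rw [e2, e, zero_smul])
    have := sq_pos_of_ne_zero (mul_ne_zero s0 fun e => p0 (dotProduct_self_eq_zero.1 e))
    have k2 := bf_nonneg hp (w - s • p)
    rw [show p ⬝ᵥ w = s * (p ⬝ᵥ p) by rw [e2, dotProduct_smul, smul_eq_mul]]
    linarith
  · nlinarith [bf_pos hp h0, sq_nonneg (p ⬝ᵥ w)]

theorem tg_ct (hg : P366Z.Met g) (hu : ContDiffAt ℝ 2 u x) (u0 : dd u x ≠ 0) :
    ContinuousAt (fun y i j => tg (mat g y)⁻¹ (dd u y) i j) x :=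
  continuousAt_pi.2 fun i => continuousAt_pi.2 fun j => ContinuousAt.comp
    (g := fun z : E n × (Fin n → ℝ) => tg (mat g z.1)⁻¹ z.2 i j) (f := fun y => (y, dd u y))
    (tg_cd hg u0 i j).continuousAt (dd_cd (k := 1) hu (by norm_num)).continuousAt

/-- ellipticity in the tangent directions -/
theorem ell (hg : P366Z.Met g) (hu : ContDiffAt ℝ 2 u x) (u0 : dd u x ≠ 0) : ∃ c > (0 : ℝ),
    ∀ᶠ y in 𝓝 x, ∀ w : E n, c * ‖w‖ ^ 2 ≤ qf (tg (mat g y)⁻¹ (dd u y)) w + (dd u y ⬝ᵥ w) ^ 2 :=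
  ell0 (tg_ct hg hu u0) (dd_cd (k := 1) hu (by norm_num)).continuousAt.snd fun _ =>
    tg_pos (hg.inv_pos x) u0

end Vale.Agent.P366HP
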