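import Vale.Agent.P366Z.Upd

/-!
# P366HP: test functions which are concentrated near a hyperplane
-/

open MeasureTheory Metric Filter Topology Set
open scoped ContDiff
open Vale.Agent.P366.Stmt

noncomputable section

namespace Vale.Agent.P366HP

variable {n : ℕ} {ξ : E n →L[ℝ] ℝ} {m : E n}

theorem eta : ∃ η : ℝ → ℝ, ContDiff ℝ ∞ η ∧ (∀ t, 2 ≤ |t| → η t = 0) ∧ (∀ t, 0 ≤ η t) ∧
    (∀ t ≤ 0, 0 ≤ deriv η t ∧ 0 ≤ deriv (deriv η) t) ∧ 0 < deriv η (-1 / 2) := by
  obtain ⟨c, f, h⟩ := P366Z.UpdH.ex_fc one_pos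
  have e : ∀ t ≤ (0 : ℝ), (fun t => f (t + 3) * Real.smoothTransition (2 - t)) =ᶠ[𝓝 t]
      fun t => f (t + 3) := fun t ht => by
    filter_upwards [Iio_mem_nhds (show t < 1 by linarith)] with s hs
    rw [Real.smoothTransition.one_of_one_le (by linarith [mem_Iio.1 hs]), mul_one]
  have e1 : deriv (fun t => f (t + 3)) = fun t => deriv f (t + 3) := funext fun t =>
    deriv_comp_add_const f 3 t
  refine ⟨fun t => f (t + 3) * Real.smoothTransition (2 - t),
    (h.sm.comp (contDiff_id.add contDiff_const)).mul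
      (Real.smoothTransition.contDiff.comp (contDiff_const.sub contDiff_id)), fun t ht => ?_,
    fun t => mul_nonneg (P366Z.UpdH.nonneg h _) (Real.smoothTransition.nonneg _),
    fun t ht => ⟨?_, ?_⟩, ?_⟩
  · rcases le_abs.1 ht with k | k
    · simp only [Real.smoothTransition.zero_of_nonpos (show 2 - t ≤ 0 by linarith), mul_zero]
    · simp only [h.zero (t + 3) (by linarith), zero_mul]
  · rw [(e t ht).deriv_eq, e1]
    exact (h.d1 _).1
  · rw [(e t ht).deriv.deriv_eq, e1, deriv_comp_add_const]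
    exact h.d2 _
  · have : f =ᶠ[𝓝 (-1 / 2 + 3)] fun t => t - c := by
      filter_upwards [Ioi_mem_nhds (show (2 : ℝ) < -1 / 2 + 3 by norm_num)] with s hs
      exact h.lin s (by linarith [mem_Ioi.1 hs])
    rw [(e _ (by norm_num)).deriv_eq, e1]
    simp only [this.deriv_eq, deriv_sub_const, deriv_id'', one_pos]

/-- the indicator of the lower half space -/
def hv (ξ : E n →L[ℝ] ℝ) (w : E n) : ℝ := if ξ w ≤ 0 then 1 else 0

theorem hv_meas (ξ : E n →L[ℝ] ℝ) : Measurable (hv ξ) :=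
  Measurable.ite (measurableSet_le ξ.measurable measurable_const) measurable_const measurable_const

theorem hv_le (w : E n) (h : ξ w ≤ 0) : hv ξ w = 1 := if_pos h

theorem hv_gt (w : E n) (h : 0 < ξ w) : hv ξ w = 0 := if_neg h.not_ge

theorem hv_abs (ξ : E n →L[ℝ] ℝ) (w : E n) : |hv ξ w| ≤ 1 := by
  unfold hv
  split_ifs <;> simp

/-- the derivative in the direction `m` -/
def dm (m : E n) (Ψ : E n → ℝ) (w : E n) : ℝ := fderiv ℝ Ψ w m

theorem dm_sm {Ψ : E n → ℝ} (h : Smooth Ψ) (m : E n) : Smooth (dm m Ψ) :=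
  (ContDiff.fderiv_right h (by simp)).clm_apply contDiff_const

theorem dm_supp {Ψ : E n → ℝ} (h : HasCompactSupport Ψ) (m : E n) : HasCompactSupport (dm m Ψ) :=
  h.fderiv_apply ℝ m

/-- the sign conditions -/
structure Tf (ξ : E n →L[ℝ] ℝ) (m : E n) (Ψ : E n → ℝ) : Prop where
  sm : Smooth Ψ
  cs : HasCompactSupport Ψ
  nn : ∀ w, 0 ≤ Ψ w
  d1 : ∀ w, ξ w ≤ 0 → 0 ≤ dm m Ψ w
  d2 : ∀ w, ξ w ≤ 0 → 0 ≤ dm m (dm m Ψ) w
  pos : 0 < ∫ w, hv ξ w * dm m Ψ w

theorem dm_prod (hm : ξ m = 1) {b : E n → ℝ} (hb : Smooth b) {η : ℝ → ℝ} (hη : ContDiff ℝ ∞ η) :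
    dm m (fun w => b (w - ξ w • m) * η (ξ w)) = fun w => b (w - ξ w • m) * deriv η (ξ w) := by
  funext w
  have s : ContDiff ℝ ∞ fun w => b (w - ξ w • m) * η (ξ w) :=
    (ContDiff.comp hb (contDiff_id.sub (ξ.contDiff.smul contDiff_const))).mul (hη.comp ξ.contDiff)
  rw [dm, ← (s.differentiable (by simp) w).lineDeriv_eq_fderiv, lineDeriv]
  have e : ∀ t : ℝ, w + t • m - ξ (w + t • m) • m = w - ξ w • m := fun t => by
    rw [map_add, map_smul, hm, smul_eq_mul, mul_one, add_smul, add_sub_add_right_eq_sub]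
  have e' : ∀ t : ℝ, ξ (w + t • m) = ξ w + t := fun t => by
    rw [map_add, map_smul, hm, smul_eq_mul, mul_one]
  simp only [e]
  simp only [e', deriv_const_mul_field', deriv_comp_const_add, add_zero]

theorem tf0 (hm : ξ m = 1) : ∃ Ψ, Tf ξ m Ψ := by
  obtain ⟨η, h1, h2, h3, h4, h5⟩ := eta
  have h1' : ContDiff ℝ ∞ (deriv η) := (contDiff_infty_iff_deriv.1 h1).2
  have hb : Smooth (P366Z.cut 1 : E n → ℝ) := P366Z.sm_cut 1
  have s : Smooth fun w => P366Z.cut 1 (w - ξ w • m) * η (ξ w) :=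
    (ContDiff.comp hb (contDiff_id.sub (ξ.contDiff.smul contDiff_const))).mul (h1.comp ξ.contDiff)
  have c : HasCompactSupport fun w => P366Z.cut 1 (w - ξ w • m) * η (ξ w) := by
    refine P366Z.supp_of_out (R := 2 + 2 * ‖m‖) fun w hw => ?_
    rcases le_total 2 |ξ w| with k | k
    · rw [h2 _ k, mul_zero]
    · have := norm_add_le (w - ξ w • m) (ξ w • m)
      rw [sub_add_cancel, norm_smul, Real.norm_eq_abs] at this
      rw [P366Z.cut_zero one_pos (by nlinarith [norm_nonneg m]), zero_mul]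
  have d1 : ∀ w, ξ w ≤ 0 → 0 ≤ dm m (fun w => P366Z.cut 1 (w - ξ w • m) * η (ξ w)) w :=
    fun w hw => by
      rw [dm_prod hm hb h1]
      exact mul_nonneg (P366Z.cut_nonneg _ _) (h4 _ hw).1
  refine ⟨_, s, c, fun w => mul_nonneg (P366Z.cut_nonneg _ _) (h3 _), d1, fun w hw => ?_, ?_⟩
  · rw [dm_prod hm hb h1, dm_prod hm hb h1']
    exact mul_nonneg (P366Z.cut_nonneg _ _) (h4 _ hw).2
  · have p : 0 < dm m (fun w => P366Z.cut 1 (w - ξ w • m) * η (ξ w)) ((-1 / 2 : ℝ) • m) := by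
      rw [dm_prod hm hb h1]
      simp only [map_smul, hm, smul_eq_mul, mul_one, sub_self]
      rwa [P366Z.cut_one (by simp), one_mul]
    have k1 := (dm_sm s m).cont
    have k2 := dm_supp c m
    generalize dm m (fun w => P366Z.cut 1 (w - ξ w • m) * η (ξ w)) = ρ at d1 p k1 k2
    rw [integral_pos_iff_support_of_nonneg (fun w => ?_)
      ((k1.integrable_of_hasCompactSupport k2).bdd_mul (hv_meas ξ).aestronglyMeasurable
        (ae_of_all _ (hv_abs ξ)))]
    · refine (((isOpen_lt ξ.continuous continuous_const).inter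
        (isOpen_lt continuous_const k1)).measure_pos volume ⟨_, (?_ : _ < (0 : ℝ)), p⟩).trans_le
        (measure_mono fun w hw => ?_)
      · rw [map_smul, hm]
        norm_num
      · rw [Function.mem_support, hv_le w (le_of_lt hw.1), one_mul]
        exact ne_of_gt hw.2
    · rcases le_or_gt (ξ w) 0 with k | k
      · simpa only [hv_le w k, one_mul, Pi.zero_apply] using d1 w k
      · simp only [hv_gt w k, zero_mul, Pi.zero_apply, le_refl]

theorem int_lin (T : E n ≃L[ℝ] E n) : ∃ c > (0 : ℝ), ∀ G : E n → ℝ, ∫ w, G (T w) = c * ∫ w, G w := by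
  have d := T.toLinearEquiv.isUnit_det'.ne_zero
  refine ⟨_, abs_pos.2 (inv_ne_zero d), fun G => ?_⟩
  have := integral_map_equiv (μ := volume) T.toHomeomorph.toMeasurableEquiv G
  have e := Measure.map_linearMap_addHaar_eq_smul_addHaar (volume : Measure (E n)) d
  refine this.symm.trans ((congrArg (fun μ => ∫ w, G w ∂μ) e).trans ?_)
  simp only [integral_smul_measure, ENNReal.toReal_ofReal, abs_nonneg, smul_eq_mul]

/-- the part of the differential which is not a multiple of `ξ` -/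
def rm (ξ : E n →L[ℝ] ℝ) (m : E n) (Ψ : E n → ℝ) (w : E n) : E n →L[ℝ] ℝ :=
  fderiv ℝ Ψ w - dm m Ψ w • ξ

/-- **The test functions.** -/
theorem tf (hm : ξ m = 1) {ε : ℝ} (hε : 0 < ε) :
    ∃ Ψ, Tf ξ m Ψ ∧ ∫ w, ‖rm ξ m Ψ w‖ ≤ ε * ∫ w, hv ξ w * dm m Ψ w := by
  obtain ⟨Ψ, h⟩ := tf0 hm
  have b0 : 0 ≤ ∫ w, ‖rm ξ m Ψ w‖ := integral_nonneg fun _ => norm_nonneg _
  obtain ⟨L, L0, hL⟩ : ∃ L > (0 : ℝ), ∫ w, ‖rm ξ m Ψ w‖ ≤ ε * (L * ∫ w, hv ξ w * dm m Ψ w) := by
    have := mul_pos hε h.pos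
    refine ⟨(∫ w, ‖rm ξ m Ψ w‖) / (ε * ∫ w, hv ξ w * dm m Ψ w) + 1, by positivity, ?_⟩
    rw [mul_left_comm, add_mul, div_mul_cancel₀ _ this.ne']
    linarith
  have a : ∀ (s : ℝ) w, (ContinuousLinearMap.id ℝ (E n) + (s - 1) • ξ.smulRight m) w =
      w + ((s - 1) * ξ w) • m := fun s w => by simp [smul_smul]
  have a' : ∀ s t : ℝ, s * t = 1 → ∀ w, (ContinuousLinearMap.id ℝ (E n) + (s - 1) • ξ.smulRight m)
      ((ContinuousLinearMap.id ℝ (E n) + (t - 1) • ξ.smulRight m) w) = w := fun s t e w => by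
    rw [a, a, map_add, map_smul, hm, add_assoc, ← add_smul, smul_eq_mul,
      show (t - 1) * ξ w + (s - 1) * (ξ w + (t - 1) * ξ w * 1) = 0 by
        linear_combination ξ w * e, zero_smul, add_zero]
  obtain ⟨T, hT⟩ : ∃ T : E n ≃L[ℝ] E n, ∀ w, T w = w + ((L - 1) * ξ w) • m :=
    ⟨.equivOfInverse _ _ (a' _ _ (inv_mul_cancel₀ L0.ne')) (a' _ _ (mul_inv_cancel₀ L0.ne')), a L⟩
  obtain ⟨c, c0, hc⟩ := int_lin T
  have t1 : ∀ w, ξ (T w) = L * ξ w := fun w => by
    rw [hT, map_add, map_smul, hm, smul_eq_mul]; ring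
  have t2 : T m = L • m := by rw [hT, hm, mul_one, sub_smul, one_smul, add_sub_cancel]
  have f1 : ∀ (G : E n → ℝ) w v, fderiv ℝ (fun w => G (T w)) w v = fderiv ℝ G (T w) (T v) :=
    fun G w v => congrArg (fun A : E n →L[ℝ] ℝ => A v) (T.comp_right_fderiv (f := G) (x := w))
  have f2 : ∀ G : E n → ℝ, dm m (fun w => G (T w)) = fun w => L * dm m G (T w) := fun G =>
    funext fun w => by rw [dm, f1, t2, map_smul, smul_eq_mul, dm]
  have f3 : ∀ w, hv ξ w = hv ξ (T w) := fun w => by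
    rcases le_or_gt (ξ w) 0 with k | k
    · rw [hv_le w k, hv_le _ (by rw [t1]; exact mul_nonpos_of_nonneg_of_nonpos L0.le k)]
    · rw [hv_gt w k, hv_gt _ (by rw [t1]; exact mul_pos L0 k)]
  have i1 : ∫ w, hv ξ w * dm m (fun w => Ψ (T w)) w = c * (L * ∫ w, hv ξ w * dm m Ψ w) := by
    rw [← integral_const_mul, ← hc, f2]
    exact integral_congr_ae (ae_of_all _ fun w => by simp only [← f3]; ring)
  have i2 : ∀ w, rm ξ m (fun w => Ψ (T w)) w = rm ξ m Ψ (T w) := fun w => by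
    ext v
    rw [rm, rm, f2]
    simp only [sub_apply, smul_apply, f1, hT v, map_add,
      map_smul, smul_eq_mul, dm]
    ring
  have neg : ∀ w, ξ w ≤ 0 → ξ (T w) ≤ 0 := fun w k => by
    rw [t1]; exact mul_nonpos_of_nonneg_of_nonpos L0.le k
  refine ⟨fun w => Ψ (T w), ⟨ContDiff.comp h.sm T.contDiff, h.cs.comp_homeomorph T.toHomeomorph,
    fun w => h.nn _, fun w k => ?_, fun w k => ?_, ?_⟩, ?_⟩
  · rw [f2]
    exact mul_nonneg L0.le (h.d1 _ (neg w k))
  · rw [f2, f2 fun w => L * dm m Ψ w]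
    refine mul_nonneg L0.le ?_
    rw [dm, fderiv_const_mul ((dm_sm h.sm m).diff _)]
    exact mul_nonneg L0.le (h.d2 _ (neg w k))
  · rw [i1]
    exact mul_pos c0 (mul_pos L0 h.pos)
  · simp only [i2]
    rw [i1, hc fun w => ‖rm ξ m Ψ w‖, mul_left_comm]
    exact mul_le_mul_of_nonneg_left hL c0.le

end Vale.Agent.P366HP
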