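import Vale.Agent.P366HP.Pan0

/-!
# P366HP: the blow up of an inequality between integrals
-/

open MeasureTheory Metric Filter Topology Set
open scoped ContDiff NNReal
open Vale.Agent.P366.Stmt

noncomputable section

namespace Vale.Agent.P366HP

variable {n : ℕ} {ξ : E n →L[ℝ] ℝ} {m y0 : E n} {ρ Ψ : E n → ℝ} {δ : ℝ}

theorem ev_sc {B C : Set (E n)} (hB : B ∈ 𝓝 y0) (hC : IsCompact C) :
    ∀ᶠ δ : ℝ in 𝓝[>] 0, ∀ w ∈ C, y0 + δ • w ∈ B := by
  refine (hC.eventually_forall_of_forall_eventually (P := fun (δ : ℝ) w => y0 + δ • w ∈ B)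
    fun w _ => ?_).filter_mono nhdsWithin_le_nhds
  have : Continuous fun z : ℝ × E n => y0 + z.1 • z.2 := by fun_prop
  exact this.continuousAt.preimage_mem_nhds (by simpa using hB)

theorem tend_sc (y0 w : E n) : Tendsto (fun δ : ℝ => y0 + δ • w) (𝓝[>] 0) (𝓝 y0) := fun _ hB =>
  (ev_sc hB isCompact_singleton).mono fun _ h => h w rfl

theorem ae_ne (hm : ξ m = 1) : ∀ᵐ w, ξ w ≠ 0 :=
  measure_mono_null (fun w (hw : ¬ξ w ≠ 0) => (not_not.1 hw : w ∈ LinearMap.ker ξ.toLinearMap))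
    (Measure.addHaar_submodule volume _ fun e => by
      have : m ∈ LinearMap.ker ξ.toLinearMap := e ▸ Submodule.mem_top
      exact one_ne_zero (hm.symm.trans this))

theorem dct (hm : ξ m = 1) {G : ℝ → E n → ℝ} {G0 : E n → ℝ} {C : ℝ} (h1 : Continuous ρ)
    (h2 : HasCompactSupport ρ) (me : ∀ δ, Measurable (G δ))
    (bd : ∀ᶠ δ in 𝓝[>] 0, ∀ w ∈ tsupport ρ, |G δ w| ≤ C)
    (lim : ∀ w, ξ w ≠ 0 → Tendsto (fun δ => G δ w) (𝓝[>] 0) (𝓝 (G0 w))) :
    Tendsto (fun δ => ∫ w, G δ w * ρ w) (𝓝[>] 0) (𝓝 (∫ w, G0 w * ρ w)) ∧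
      ∀ᶠ δ in 𝓝[>] 0, Integrable fun w => G δ w * ρ w := by
  have i := (h1.integrable_of_hasCompactSupport (μ := volume) h2).norm.const_mul C
  have a : ∀ δ, AEStronglyMeasurable (fun w => G δ w * ρ w) volume := fun δ =>
    ((me δ).mul h1.measurable).aestronglyMeasurable
  have b : ∀ᶠ δ in 𝓝[>] 0, ∀ᵐ w, ‖G δ w * ρ w‖ ≤ C * ‖ρ w‖ := bd.mono fun δ h => ae_of_all _
    fun w => by
      by_cases k : w ∈ tsupport ρ
      · rw [norm_mul]
        exact mul_le_mul_of_nonneg_right (h w k) (norm_nonneg _)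
      · simp [image_eq_zero_of_notMem_tsupport k]
  exact ⟨tendsto_integral_filter_of_dominated_convergence _ (.of_forall a) b i
    ((ae_ne hm).mono fun w hw => (lim w hw).mul_const _), b.mono fun δ h => i.mono' (a δ) h⟩

theorem chg (y0 : E n) (hδ : 0 < δ) :
    ∃ c > (0 : ℝ), ∀ G : E n → ℝ, ∫ w, G (y0 + δ • w) = c * ∫ y, G y :=
  ⟨_, inv_pos.2 (pow_pos hδ _), fun G => by
    rw [Measure.integral_comp_smul_of_nonneg volume (fun w => G (y0 + w)) δ (hR := hδ.le),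
      integral_add_left_eq_self, smul_eq_mul]⟩

theorem qmp (y0 : E n) (hδ : 0 < δ) :
    Measure.QuasiMeasurePreserving (fun w : E n => y0 + δ • w) volume volume :=
  (measurePreserving_add_left volume y0).quasiMeasurePreserving.comp
    (Measure.quasiMeasurePreserving_smul volume hδ.ne')

theorem ibp {f : E n → ℝ} (hf : P366Z.Lip f) (h1 : Smooth ρ) (h2 : HasCompactSupport ρ) (m : E n) :
    ∫ w, lineDeriv ℝ f w m * ρ w = -∫ w, f w * dm m ρ w := by
  obtain ⟨_, hf⟩ := hf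
  obtain ⟨_, h3⟩ := P366Z.lip_of_supp (contDiff_iff_contDiffAt.2 h1.c1) h2
  rw [hf.integral_lineDeriv_mul_eq h3 h2, ← integral_neg]
  refine integral_congr_ae (ae_of_all _ fun w => ?_)
  simp only [(h1.diff w).lineDeriv_eq_fderiv, map_neg, dm]
  ring

theorem half_int (hm : ξ m = 1) (h1 : Smooth Ψ) (h2 : HasCompactSupport Ψ) :
    ∫ w, (1 - hv ξ w) * ξ w * dm m (dm m Ψ) w = ∫ w, hv ξ w * dm m Ψ w := by
  have a := ibp (P366Z.lip_const 1) h1 h2 m
  simp only [lineDeriv, deriv_const', zero_mul, integral_zero, one_mul, zero_eq_neg] at a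
  have b := ibp (P366Z.Lip.max ⟨_, ξ.lipschitz⟩ (P366Z.lip_const 0)) (dm_sm h1 m) (dm_supp h2 m) m
  have i := (dm_sm h1 m).cont.integrable_of_hasCompactSupport (μ := volume) (dm_supp h2 m)
  have c : ∫ w, lineDeriv ℝ (fun w => max (ξ w) 0) w m * dm m Ψ w =
      ∫ w, (dm m Ψ w - hv ξ w * dm m Ψ w) := by
    refine integral_congr_ae ((ae_ne hm).mono fun w hw => ?_)
    rcases hw.lt_or_gt with k | k
    · have : (fun w => max (ξ w) 0) =ᶠ[𝓝 w] fun _ => 0 :=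
        (ξ.continuous.continuousAt.eventually_lt continuousAt_const k).mono fun _ h => max_eq_right h.le
      simp only [this.lineDeriv_eq]
      simp only [lineDeriv, deriv_const', zero_mul, hv_le w k.le, one_mul, sub_self]
    · have : (fun w => max (ξ w) 0) =ᶠ[𝓝 w] ξ :=
        (continuousAt_const.eventually_lt ξ.continuous.continuousAt k).mono fun _ h => max_eq_left h.le
      simp only [this.lineDeriv_eq, ξ.differentiableAt.lineDeriv_eq_fderiv, ξ.fderiv, hm, hv_gt w k,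
        one_mul, zero_mul, sub_zero]
  rw [c, integral_sub i (i.bdd_mul (hv_meas ξ).aestronglyMeasurable (ae_of_all _ (hv_abs ξ))), a,
    zero_sub, neg_inj] at b
  rw [b]
  refine integral_congr_ae (ae_of_all _ fun w => ?_)
  rcases le_or_gt (ξ w) 0 with k | k
  · simp only [hv_le w k, max_eq_right k, sub_self, zero_mul]
  · simp only [hv_gt w k, max_eq_left k.le, sub_zero, one_mul]

theorem ld_sc (f : E n → ℝ) (hδ : 0 < δ) (w : E n) :
    lineDeriv ℝ (fun w => f (y0 + δ • w) / δ) w m = lineDeriv ℝ f (y0 + δ • w) m := by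
  have e : ∀ t : ℝ, y0 + δ • (w + t • m) = y0 + δ • w + t • δ • m := fun t => by
    rw [smul_add, add_assoc, smul_comm]
  rw [lineDeriv]
  simp only [e, deriv_div_const]
  rw [← lineDeriv, lineDeriv_smul, smul_eq_mul, mul_div_cancel_left₀ _ hδ.ne']

theorem lip_sc {f : E n → ℝ} (hf : P366Z.Lip f) (δ : ℝ) : P366Z.Lip fun w => f (y0 + δ • w) / δ := by
  obtain ⟨K, _, h⟩ := hf.le
  refine (P366Z.lip_of_le (K := K * |δ|) fun x y => (h _ _).trans_eq ?_).div_const δ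
  rw [add_sub_add_left_eq_sub, ← smul_sub, norm_smul, mul_assoc, Real.norm_eq_abs]

/-- the inequality for the rescaled test function -/
theorem db_sc {V : E n → E n} {Nn : E n → (E n →L[ℝ] ℝ) → ℝ} {B : Set (E n)}
    (db : ∀ φ, Smooth φ → HasCompactSupport φ → tsupport φ ⊆ B → (∀ y, 0 ≤ φ y) →
      -∫ y, fderiv ℝ φ y (V y) ≤ ∫ y, Nn y (fderiv ℝ φ y))
    (h1 : Smooth Ψ) (h2 : HasCompactSupport Ψ) (h3 : ∀ w, 0 ≤ Ψ w) (hδ : 0 < δ)
    (hs : ∀ w ∈ tsupport Ψ, y0 + δ • w ∈ B) :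
    -∫ w, fderiv ℝ Ψ w (V (y0 + δ • w)) ≤ ∫ w, Nn (y0 + δ • w) (fderiv ℝ Ψ w) := by
  have e1 : ∀ w, δ⁻¹ • (y0 + δ • w - y0) = w := fun w => by
    rw [add_sub_cancel_left, inv_smul_smul₀ hδ.ne']
  have e2 : ∀ y, y0 + δ • δ⁻¹ • (y - y0) = y := fun w => by
    rw [smul_inv_smul₀ hδ.ne', add_sub_cancel]
  have c : ContDiff ℝ ∞ fun y : E n => δ⁻¹ • (y - y0) := by fun_prop
  have cl : IsCompact ((fun w => y0 + δ • w) '' tsupport Ψ) := IsCompact.image h2 (by fun_prop)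
  have sub : tsupport (fun y => δ * Ψ (δ⁻¹ • (y - y0))) ⊆ (fun w => y0 + δ • w) '' tsupport Ψ :=
    closure_minimal (fun y hy => ⟨_, subset_tsupport _ (right_ne_zero_of_mul hy), e2 y⟩) cl.isClosed
  have d : ∀ w, fderiv ℝ (fun y => δ * Ψ (δ⁻¹ • (y - y0))) (y0 + δ • w) = fderiv ℝ Ψ w := fun w => by
    have a : HasFDerivAt Ψ (fderiv ℝ Ψ w) (δ⁻¹ • (y0 + δ • w - y0)) := by
      rw [e1]; exact (h1.diff w).hasFDerivAt
    have b : HasFDerivAt (fun y : E n => δ⁻¹ • (y - y0)) (δ⁻¹ • ContinuousLinearMap.id ℝ _)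
      (y0 + δ • w) := ((hasFDerivAt_id _).sub_const y0).const_smul δ⁻¹
    refine ((a.comp (y0 + δ • w) b).const_mul δ).fderiv.trans ?_
    ext v
    simp [hδ.ne']
  have := db (fun y => δ * Ψ (δ⁻¹ • (y - y0))) (ContDiff.mul contDiff_const (ContDiff.comp h1 c)) (cl.of_isClosed_subset
    (isClosed_tsupport _) sub) (sub.trans (image_subset_iff.2 hs)) fun y => mul_nonneg hδ.le (h3 _)
  obtain ⟨k, k0, hk⟩ := chg y0 hδ
  have := mul_le_mul_of_nonneg_left this k0.le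
  rw [mul_neg, ← hk, ← hk] at this
  simpa only [d] using this

/-- **The blow up.** -/
theorem core (hm : ξ m = 1) {V : E n → E n} {Nn : E n → (E n →L[ℝ] ℝ) → ℝ} {v f e : E n → ℝ}
    {C c1 c2 θ : ℝ} {B : Set (E n)} (hB : B ∈ 𝓝 y0) (hV : Measurable V) (hv' : Measurable v)
    (he : Measurable e) (hf : P366Z.Lip f) (f0 : f y0 = 0) (N0 : ∀ y c, 0 ≤ Nn y c ∧ Nn y 0 = 0)
    (bd : ∀ y ∈ B, ‖V y‖ ≤ C ∧ |v y| ≤ C ∧ |e y| ≤ C ∧ 0 ≤ f y ∧
      ∀ (a : ℝ) c, Nn y (a • ξ + c) ≤ v y * |a| + C * ‖c‖)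
    (db : ∀ φ, Smooth φ → HasCompactSupport φ → tsupport φ ⊆ B → (∀ y, 0 ≤ φ y) →
      -∫ y, fderiv ℝ φ y (V y) ≤ ∫ y, Nn y (fderiv ℝ φ y))
    (fe : ∀ᵐ y, y ∈ B → ξ (V y) = lineDeriv ℝ f y m + e y)
    (l1 : ∀ w, 0 < ξ w → Tendsto (fun δ : ℝ => f (y0 + δ • w) / δ) (𝓝[>] 0) (𝓝 (c1 * ξ w)))
    (l2 : ∀ w, ξ w ≠ 0 → Tendsto (fun δ : ℝ => e (y0 + δ • w)) (𝓝[>] 0) (𝓝 (-c2 * hv ξ w)))
    (l3 : ∀ w, ξ w ≠ 0 → Tendsto (fun δ : ℝ => v (y0 + δ • w)) (𝓝[>] 0) (𝓝 (θ * hv ξ w))) :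
    c1 + c2 ≤ θ := by
  have C0 : 0 ≤ C := (norm_nonneg _).trans (bd _ (mem_of_mem_nhds hB)).1
  refine le_of_forall_pos_le_add fun ε ε0 => ?_
  obtain ⟨Ψ, h, hr⟩ := tf hm (show 0 < ε / (2 * C + 1) by positivity)
  have s1 := dm_sm h.sm m
  have s2 := dm_supp h.cs m
  have t1 : tsupport (dm m Ψ) ⊆ tsupport Ψ := tsupport_fderiv_apply_subset ℝ m
  have t2 : tsupport (dm m (dm m Ψ)) ⊆ tsupport Ψ := (tsupport_fderiv_apply_subset ℝ m).trans t1
  have t3 : tsupport (fun w => |dm m Ψ w|) ⊆ tsupport Ψ :=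
    (tsupport_comp_subset (g := fun t : ℝ => |t|) abs_zero _).trans t1
  have ev := ev_sc hB h.cs
  have ms : ∀ δ : ℝ, Measurable fun w : E n => y0 + δ • w := fun δ => by fun_prop
  obtain ⟨K, K0, hK⟩ := hf.le
  obtain ⟨R, hR⟩ := h.cs.isCompact.isBounded.exists_norm_le
  have fb : ∀ δ > (0 : ℝ), ∀ w ∈ tsupport Ψ, |f (y0 + δ • w) / δ| ≤ K * R := fun δ hδ w hw => by
    have := hK (y0 + δ • w) y0
    rw [f0, sub_zero, add_sub_cancel_left, norm_smul, Real.norm_of_nonneg hδ.le] at this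
    rw [abs_div, abs_of_pos hδ, div_le_iff₀ hδ]
    nlinarith [mul_le_mul_of_nonneg_left (hR w hw) (mul_pos K0 hδ).le]
  obtain ⟨a1, a2⟩ := dct hm (G := fun δ w => (1 - hv ξ w) * (f (y0 + δ • w) / δ))
    (G0 := fun w => c1 * ((1 - hv ξ w) * ξ w)) (C := K * R) (dm_sm s1 m).cont (dm_supp s2 m)
    (fun δ => (measurable_const.sub (hv_meas ξ)).mul (lip_sc hf δ).cont.measurable)
    (eventually_mem_nhdsWithin.mono fun δ hδ w hw => by
      rcases le_or_gt (ξ w) 0 with k | k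
      · simpa only [hv_le w k, sub_self, zero_mul, abs_zero] using
          (abs_nonneg _).trans (fb δ hδ w (t2 hw))
      · simpa only [hv_gt w k, sub_zero, one_mul] using fb δ hδ w (t2 hw))
    fun w hw => by
      rcases le_or_gt (ξ w) 0 with k | k
      · simp only [hv_le w k, sub_self, zero_mul, mul_zero, tendsto_const_nhds]
      · simpa only [hv_gt w k, sub_zero, one_mul] using l1 w k
  obtain ⟨b1, b2⟩ := dct hm (G := fun δ w => e (y0 + δ • w)) (C := C) s1.cont s2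
    (fun δ => he.comp (ms δ))
    (ev.mono fun δ hδ w hw => (bd _ (hδ w (t1 hw))).2.2.1) l2
  obtain ⟨d1, d2⟩ := dct hm (G := fun δ w => v (y0 + δ • w)) (ρ := fun w => |dm m Ψ w|) (C := C)
    s1.cont.abs s2.abs (fun δ => hv'.comp (ms δ))
    (ev.mono fun δ hδ w hw => (bd _ (hδ w (t3 hw))).2.1) l3
  have cd : Continuous (fderiv ℝ Ψ) := ContDiff.continuous_fderiv h.sm (by simp)
  have z : ∀ w ∉ tsupport Ψ, fderiv ℝ Ψ w = 0 := fun w hw =>
    Function.notMem_support.1 fun k => hw (support_fderiv_subset ℝ k)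
  have ir : Integrable fun w => C * ‖rm ξ m Ψ w‖ :=
    ((cd.sub (s1.cont.smul continuous_const)).integrable_of_hasCompactSupport
      (HasCompactSupport.intro h.cs fun w hw => by simp [dm, z w hw])).norm.const_mul C
  have sp : ∀ w, fderiv ℝ Ψ w = dm m Ψ w • ξ + rm ξ m Ψ w := fun w => by rw [rm, add_sub_cancel]
  have key : ∀ᶠ δ : ℝ in 𝓝[>] 0, (∫ w, (1 - hv ξ w) * (f (y0 + δ • w) / δ) * dm m (dm m Ψ) w) -
      ∫ w, e (y0 + δ • w) * dm m Ψ w ≤
      (∫ w, v (y0 + δ • w) * |dm m Ψ w|) + 2 * ∫ w, C * ‖rm ξ m Ψ w‖ := by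
    filter_upwards [ev, a2, b2, d2, self_mem_nhdsWithin] with δ hs a2 b2 d2 hδ
    have k1 := db_sc db h.sm h.cs h.nn hδ hs
    have k2 : ∫ w, Nn (y0 + δ • w) (fderiv ℝ Ψ w) ≤
        ∫ w, (v (y0 + δ • w) * |dm m Ψ w| + C * ‖rm ξ m Ψ w‖) :=
      integral_mono_of_nonneg (ae_of_all _ fun w => (N0 _ _).1) (d2.add ir) (ae_of_all _ fun w => by
          by_cases hw : w ∈ tsupport Ψ
          · simpa only [← sp] using (bd _ (hs w hw)).2.2.2.2 (dm m Ψ w) (rm ξ m Ψ w)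
          · simp [rm, dm, z w hw, (N0 _ 0).2])
    have lf := lip_sc (y0 := y0) hf δ
    have i1 : Integrable fun w => lineDeriv ℝ (fun w => f (y0 + δ • w) / δ) w m * dm m Ψ w :=
      (s1.cont.integrable_of_hasCompactSupport s2).bdd_mul
        (measurable_lineDeriv lf.cont).aestronglyMeasurable
        (ae_of_all _ fun w => norm_lineDeriv_le_of_lipschitz ℝ lf.choose_spec)
    have k3 : ∫ w, fderiv ℝ Ψ w (V (y0 + δ • w)) ≤
        ∫ w, (lineDeriv ℝ (fun w => f (y0 + δ • w) / δ) w m * dm m Ψ w +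
          e (y0 + δ • w) * dm m Ψ w + C * ‖rm ξ m Ψ w‖) := by
      refine integral_mono_ae (Integrable.mono' ((cd.integrable_of_hasCompactSupport
        (h.cs.fderiv ℝ)).norm.mul_const C) (isBoundedBilinearMap_apply.continuous.comp_aestronglyMeasurable
          (cd.aestronglyMeasurable.prodMk (hV.comp (ms δ)).aestronglyMeasurable))
          (ae_of_all _ fun w => ?_)) ((i1.add b2).add ir) ?_
      · by_cases hw : w ∈ tsupport Ψ
        · exact ((fderiv ℝ Ψ w).le_opNorm _).trans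
            (mul_le_mul_of_nonneg_left (bd _ (hs w hw)).1 (norm_nonneg _))
        · simp [z w hw]
      · filter_upwards [(qmp y0 hδ).ae fe] with w k
        by_cases hw : w ∈ tsupport Ψ
        · have := ((rm ξ m Ψ w).le_opNorm (V (y0 + δ • w))).trans
            (mul_le_mul_of_nonneg_left (bd _ (hs w hw)).1 (norm_nonneg _))
          rw [sp, add_apply, smul_apply, k (hs w hw), ld_sc f hδ, smul_eq_mul]
          linarith [le_abs_self (rm ξ m Ψ w (V (y0 + δ • w))), Real.norm_eq_abs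
            (rm ξ m Ψ w (V (y0 + δ • w)))]
        · simp [rm, dm, z w hw]
    have k4 : ∫ w, (1 - hv ξ w) * (f (y0 + δ • w) / δ) * dm m (dm m Ψ) w ≤
        ∫ w, f (y0 + δ • w) / δ * dm m (dm m Ψ) w := by
      refine integral_mono a2 ((lf.cont.mul (dm_sm s1 m).cont).integrable_of_hasCompactSupport
        (dm_supp s2 m).mul_left) fun w => ?_
      rcases le_or_gt (ξ w) 0 with k | k
      · simp only [hv_le w k, sub_self, zero_mul]
        by_cases hw : w ∈ tsupport Ψ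
        · exact mul_nonneg (div_nonneg (bd _ (hs w hw)).2.2.2.1 (le_of_lt hδ)) (h.d2 w k)
        · rw [image_eq_zero_of_notMem_tsupport fun k => hw (t2 k), mul_zero]
      · simp only [hv_gt w k, sub_zero, one_mul, le_refl]
    rw [integral_add d2 ir] at k2
    rw [integral_add (f := fun w => lineDeriv ℝ (fun w => f (y0 + δ • w) / δ) w m * dm m Ψ w +
      e (y0 + δ • w) * dm m Ψ w) (i1.add b2) ir, integral_add i1 b2, ibp lf s1 s2] at k3
    linarith
  have fin := le_of_tendsto_of_tendsto (a1.sub b1) (d1.add_const _) key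
  have e3 : ∀ w, θ * hv ξ w * |dm m Ψ w| = θ * (hv ξ w * dm m Ψ w) := fun w => by
    rcases le_or_gt (ξ w) 0 with k | k
    · rw [abs_of_nonneg (h.d1 w k), mul_assoc]
    · simp only [hv_gt w k, mul_zero, zero_mul]
  simp only [e3, mul_assoc, integral_const_mul] at fin
  have e4 := half_int hm h.sm h.cs
  simp only [mul_assoc] at e4
  rw [e4] at fin
  have p := h.pos
  generalize ∫ w, hv ξ w * dm m Ψ w = I at *
  have q : 2 * C * (ε / (2 * C + 1)) ≤ ε := by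
    rw [← mul_div_assoc, div_le_iff₀ (by positivity)]
    linarith
  refine le_of_mul_le_mul_right ?_ p
  nlinarith [mul_le_mul_of_nonneg_left hr C0, mul_le_mul_of_nonneg_right q p.le]

end Vale.Agent.P366HP
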