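import Vale.Agent.P366HP.Pan1

/-!
# P366HP: the blow up for a Riemannian metric
-/

open MeasureTheory Metric Filter Topology Set Asymptotics
open scoped ContDiff NNReal
open Vale.Agent.P366.Stmt Vale.Agent.P366Z

noncomputable section

namespace Vale.Agent.P366HP

variable {n : ℕ} {ξ : E n →L[ℝ] ℝ} {m y0 : E n} {g : Field n} {u v : E n → ℝ}

/-- measurable and bounded near `y0` -/
def Bm (y0 : E n) (u : E n → ℝ) : Prop := Measurable u ∧ u =O[𝓝 y0] fun _ => (1 : ℝ)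

theorem Bm.add (hu : Bm y0 u) (hv : Bm y0 v) : Bm y0 fun y => u y + v y :=
  ⟨hu.1.add hv.1, hu.2.add hv.2⟩

theorem Bm.sub (hu : Bm y0 u) (hv : Bm y0 v) : Bm y0 fun y => u y - v y :=
  ⟨hu.1.sub hv.1, hu.2.sub hv.2⟩

theorem Bm.mul (hu : Bm y0 u) (hv : Bm y0 v) : Bm y0 fun y => u y * v y :=
  ⟨hu.1.mul hv.1, by simpa only [mul_one] using hu.2.mul hv.2⟩

theorem bm_sum {U : Fin n → E n → ℝ} (h : ∀ i, Bm y0 (U i)) : Bm y0 fun y => ∑ i, U i y :=
  ⟨Finset.measurable_sum _ fun i _ => (h i).1, IsBigO.fun_sum fun i _ => (h i).2⟩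

theorem bm_cont (y0 : E n) (hu : Continuous u) : Bm y0 u :=
  ⟨hu.measurable, (hu.tendsto y0).isBigO_one ℝ⟩

theorem bm_of (hu : Measurable u) {C : ℝ} (h : ∀ y, |u y| ≤ C) : Bm y0 u :=
  ⟨hu, .of_bound C (.of_forall fun y => by simpa using h y)⟩

theorem bm_pd (y0 : E n) (hu : Lip u) (i : Fin n) : Bm y0 (pd i u) :=
  bm_of (measurable_pd hu.cont i) fun y => hu.pd_bd.choose_spec.2 y i

theorem Bm.ind (hu : Bm y0 u) {A : Set (E n)} (hA : MeasurableSet A) : Bm y0 (A.indicator u) :=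
  ⟨hu.1.indicator hA, (IsBigO.of_bound' (.of_forall fun y => norm_indicator_le_norm_self u y)).trans
    hu.2⟩

theorem Bm.ev (hu : Bm y0 u) : ∀ᶠ C in atTop, ∀ᶠ y in 𝓝 y0, |u y| ≤ C := by
  simpa only [norm_one, mul_one, Real.norm_eq_abs] using isBigO_iff_eventually.1 hu.2

theorem Bm.zero (hu : Bm y0 u) (hv : Continuous v) (h0 : v y0 = 0) :
    Tendsto (fun y => u y * v y) (𝓝 y0) (𝓝 0) :=
  (isLittleO_one_iff ℝ).1 (by
    simpa only [mul_one] using hu.2.mul_isLittleO ((isLittleO_one_iff ℝ).2 (h0 ▸ hv.tendsto y0)))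

theorem pd_lin (c : E n →L[ℝ] ℝ) (i : Fin n) (y : E n) : pd i c y = c (EuclideanSpace.single i 1) :=
  pd_of_hasFDerivAt c.hasFDerivAt i

theorem gn_bd (hg : Met g) (y0 : E n) :
    ∃ K ≥ (0 : ℝ), ∀ᶠ y in 𝓝 y0, ∀ c : E n →L[ℝ] ℝ, gn g c y ≤ K * ‖c‖ := by
  have a : Continuous fun y => ‖fun i j => up g i j y‖ :=
    (continuous_pi fun i => continuous_pi fun j => (hg.sm_up i j).cont).norm
  refine ⟨√(n * (‖fun i j => up g i j y0‖ + 1)), Real.sqrt_nonneg _,
    ((a.tendsto y0).eventually_le_const (lt_add_one _)).mono fun y hy c => ?_⟩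
  have := quad_le_of_bd (M := fun i j => up g i j y) (fun i j => (norm_le_pi_norm _ j).trans
    ((norm_le_pi_norm (fun i j => up g i j y) i).trans hy)) fun i => pd i c y
  rw [← norm_fderiv_sq c.differentiableAt, c.fderiv] at this
  refine (Real.sqrt_le_sqrt this).trans_eq ?_
  rw [Real.sqrt_mul (by positivity), Real.sqrt_sq (norm_nonneg _)]

/-- `p (grad φ)` times the density -/
def pf (g : Field n) (p : Fin n → E n → ℝ) (φ : E n → ℝ) (y : E n) : ℝ :=
  (∑ i, ∑ j, up g i j y * p i y * pd j φ y) * dens g y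

theorem pf_bm (hg : Met g) {p : Fin n → E n → ℝ} (hp : ∀ i, Bm y0 (p i)) : Bm y0 (pf g p ξ) :=
  (bm_sum fun i => bm_sum fun j => ((bm_cont _ (hg.sm_up i j).cont).mul (hp i)).mul
    (bm_pd _ ⟨_, ξ.lipschitz⟩ j)).mul (bm_cont _ hg.sm_dens.cont)

theorem core2 (hg : Met g) (hm : ξ m = 1) {p : Fin n → E n → ℝ} (hp : ∀ i, Bm y0 (p i))
    {A S B : Set (E n)} (hA : MeasurableSet A) (hS : MeasurableSet S) (hB : B ∈ 𝓝 y0)
    {κ t c1 c2 : ℝ} (κ0 : 0 ≤ κ) (t0 : 0 ≤ t) {f D : E n → ℝ} (hD : Bm y0 D)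
    (hf : LocallyLipschitz f) (f0 : f y0 = 0) (fn : ∀ᶠ y in 𝓝 y0, 0 ≤ f y)
    (db : ∀ φ, Smooth φ → HasCompactSupport φ → tsupport φ ⊆ B → (∀ y, 0 ≤ φ y) →
      -∫ y in A, pf g p φ y ≤ κ * ∫ y in S, gn g φ y * dens g y)
    (fD : ∀ᵐ y, y ∈ B → lineDeriv ℝ f y m = D y)
    (l1 : ∀ w, 0 < ξ w → Tendsto (fun δ : ℝ => f (y0 + δ • w) / δ) (𝓝[>] 0) (𝓝 (c1 * ξ w)))
    (l2 : ∀ w, ξ w ≠ 0 → Tendsto (fun δ : ℝ => A.indicator (pf g p ξ) (y0 + δ • w) -
      D (y0 + δ • w)) (𝓝[>] 0) (𝓝 (-c2 * hv ξ w)))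
    (l3 : ∀ w, 0 < ξ w → ∀ᶠ δ : ℝ in 𝓝[>] 0, y0 + δ • w ∉ S)
    (l4 : ∀ w, ξ w < 0 → ∀ᶠ δ : ℝ in 𝓝[>] 0, y0 + δ • w ∈ S → 1 ≤ t) :
    c1 + c2 ≤ κ * t * (gn g ξ y0 * dens g y0) := by
  obtain ⟨L, T, hT, hL⟩ := hf y0
  obtain ⟨f', hf', ef⟩ := hL.extend_real
  obtain ⟨K, K0, hK⟩ := gn_bd hg y0
  have d0 := hg.dens_pos
  have a1 : ∀ j, Bm y0 (A.indicator fun y => (∑ i, up g i j y * p i y) * dens g y) := fun j =>
    ((bm_sum fun i => (bm_cont _ (hg.sm_up i j).cont).mul (hp i)).mul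
      (bm_cont _ hg.sm_dens.cont)).ind hA
  obtain ⟨V, V1, V2, V3⟩ : ∃ V : E n → E n, Measurable V ∧ (V =O[𝓝 y0] fun _ => (1 : ℝ)) ∧
      ∀ φ y, DifferentiableAt ℝ φ y → fderiv ℝ φ y (V y) = A.indicator (pf g p φ) y := by
    refine ⟨fun y => ∑ j, (A.indicator (fun y => (∑ i, up g i j y * p i y) * dens g y) y) •
      EuclideanSpace.single j 1, Finset.measurable_sum _ fun j _ => (a1 j).1.smul_const _,
      IsBigO.fun_sum fun j _ => (IsBigO.of_bound' (.of_forall fun y => ?_)).trans (a1 j).2,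
      fun φ y h => ?_⟩
    · simp only [norm_smul, PiLp.norm_single, norm_one, mul_one, le_refl]
    · simp only [map_sum, map_smul, ← pd_eq h, smul_eq_mul]
      by_cases k : y ∈ A
      · simp only [indicator_of_mem k, pf, Finset.sum_mul]
        rw [Finset.sum_comm]
        exact Finset.sum_congr rfl fun i _ => Finset.sum_congr rfl fun j _ => by ring
      · simp only [indicator_of_notMem k, zero_mul, Finset.sum_const_zero]
  have cg : Continuous fun y => gn g ξ y * dens g y :=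
    (hg.sm_ip ξ.contDiff ξ.contDiff).cont.sqrt.mul hg.sm_dens.cont
  have a2 : Bm y0 fun y => max (S.indicator 1 y) (t * hv ξ (y - y0)) :=
    bm_of ((measurable_one.indicator hS).max (((hv_meas ξ).comp (measurable_id.sub_const y0)).const_mul
      t)) (C := max 1 t) fun y => abs_max_le_max_abs_abs.trans (max_le_max
        (by by_cases k : y ∈ S <;> simp [k])
        (by rw [abs_mul, abs_of_nonneg t0]; exact mul_le_of_le_one_right t0 (hv_abs _ _)))
  have a3 := ((bm_cont y0 (continuous_const (y := κ))).mul a2).mul (bm_cont y0 cg)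
  have a4 := ((pf_bm (ξ := ξ) hg hp).ind hA).sub hD
  have a5 := bm_cont y0 ((continuous_const (y := κ * K)).mul hg.sm_dens.cont)
  obtain ⟨C, b1, b2, b3, b4⟩ := ((isBigO_iff_eventually.1 V2).and (a3.ev.and (a4.ev.and a5.ev))).exists
  have ev := (b1.and (b2.and (b3.and (b4.and (hK.and (fn.and ((show ∀ᶠ y in 𝓝 y0, y ∈ B from hB).and
    (eventually_eventually_nhds.2 (show ∀ᶠ y in 𝓝 y0, y ∈ T from hT)))))))))
  refine core hm (Nn := fun y c => κ * S.indicator (fun y => gn g c y * dens g y) y) (C := C) ev V1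
    a3.1 a4.1 ⟨_, hf'⟩ ((ef (mem_of_mem_nhds hT)).symm.trans f0) (fun y c => ⟨mul_nonneg κ0
      (indicator_nonneg (fun y _ => mul_nonneg (gn_nonneg _ _ _) (d0 y).le) y), ?_⟩)
    (fun y hy => ⟨by simpa using hy.1, hy.2.1, hy.2.2.1, ?_, fun a c => ?_⟩)
    (fun φ h1 h2 h3 h4 => ?_) (fD.mono fun y h hy => ?_) (fun w hw => (l1 w hw).congr' ?_) l2
    fun w hw => ?_
  · simp only [gn_zero fun i => pd_lin 0 i _, zero_mul, indicator_zero, mul_zero]
  · exact (ef hy.2.2.2.2.2.2.2.self_of_nhds) ▸ hy.2.2.2.2.2.1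
  · have k1 : 0 ≤ max (S.indicator 1 y) (t * hv ξ (y - y0)) :=
      le_max_of_le_left (indicator_nonneg (fun _ _ => zero_le_one) y)
    have k2 := mul_nonneg (gn_nonneg g ξ y) (d0 y).le
    have k3 := (le_abs_self _).trans hy.2.2.2.1
    have k4 : 0 ≤ κ * K * dens g y := mul_nonneg (mul_nonneg κ0 K0) (d0 y).le
    by_cases k : y ∈ S
    · have e1 : gn g (a • ξ + c :) y ≤ gn g (a • ξ :) y + gn g c y :=
        hg.gn_add_le fun i => by simp only [pd_lin, add_apply]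
      have e2 : gn g (a • ξ :) y = |a| * gn g ξ y :=
        gn_of_pd fun i => by simp only [pd_lin, smul_apply, smul_eq_mul]
      have e3 := mul_le_mul_of_nonneg_left (e1.trans (add_le_add e2.le (hy.2.2.2.2.1 c)))
        (mul_nonneg κ0 (d0 y).le)
      have e4 := mul_le_mul_of_nonneg_right k3 (norm_nonneg c)
      have e5 := mul_le_mul_of_nonneg_right (le_max_left (1 : ℝ) (t * hv ξ (y - y0)))
        (mul_nonneg (mul_nonneg κ0 k2) (abs_nonneg a))
      simp only [indicator_of_mem k, Pi.one_apply, Pi.mul_apply] at e4 ⊢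
      linarith
    · rw [indicator_of_notMem k, mul_zero]
      exact add_nonneg (mul_nonneg (mul_nonneg (mul_nonneg κ0 k1) k2) (abs_nonneg a))
        (mul_nonneg (k4.trans k3) (norm_nonneg c))
  · have e1 : ∀ y, S.indicator (fun z => gn g (fderiv ℝ φ y) z * dens g z) y =
        S.indicator (fun z => gn g φ z * dens g z) y := fun y => by
      by_cases k : y ∈ S
      · rw [indicator_of_mem k, indicator_of_mem k,
          gn_of_pd_eq fun i => (pd_lin _ i y).trans (pd_eq (h1.diff y) i).symm]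
      · rw [indicator_of_notMem k, indicator_of_notMem k]
    simp only [V3 φ _ (h1.diff _), e1, integral_const_mul, integral_indicator hA,
      integral_indicator hS]
    exact db φ h1 h2 (fun y hy => (h3 hy).2.2.2.2.2.2.1) h4
  · have : f =ᶠ[𝓝 y] f' := hy.2.2.2.2.2.2.2.mono fun z hz => ef hz
    rw [← this.lineDeriv_eq, h hy.2.2.2.2.2.2.1, ← V3 ξ y ξ.differentiableAt, ξ.fderiv, add_sub_cancel]
  · filter_upwards [tend_sc y0 w hT] with δ hδ
    rw [ef hδ]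
  · rw [mul_right_comm, mul_assoc κ t]
    refine Tendsto.mul (tendsto_const_nhds.congr' ?_) ((cg.tendsto y0).comp (tend_sc y0 w))
    rcases hw.lt_or_gt with k | k
    · filter_upwards [l4 w k, self_mem_nhdsWithin] with δ h1 h2
      rw [add_sub_cancel_left, hv_le w k.le, hv_le _ (by
        rw [map_smul]; exact mul_nonpos_of_nonneg_of_nonpos (le_of_lt h2) k.le), mul_one,
        max_eq_right]
      by_cases k' : y0 + δ • w ∈ S
      · simpa only [indicator_of_mem k', Pi.one_apply] using h1 k'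
      · rwa [indicator_of_notMem k']
    · filter_upwards [l3 w k, self_mem_nhdsWithin] with δ h1 h2
      rw [add_sub_cancel_left, hv_gt w k, hv_gt _ (by rw [map_smul]; exact mul_pos h2 k),
        indicator_of_notMem h1, mul_zero, max_self]

/-! ### rays -/

theorem slope {F : E n → ℝ} (hF : DifferentiableAt ℝ F y0) (h0 : F y0 = 0) (w : E n) :
    Tendsto (fun δ : ℝ => F (y0 + δ • w) / δ) (𝓝[>] 0) (𝓝 (fderiv ℝ F y0 w)) := by
  simpa only [h0, sub_zero, smul_eq_mul, div_eq_inv_mul] using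
    (hF.hasFDerivAt.hasLineDerivAt w).tendsto_slope_zero_right

theorem ray_pos {F : E n → ℝ} (hF : DifferentiableAt ℝ F y0) (h0 : F y0 = 0) {w : E n}
    (hw : 0 < fderiv ℝ F y0 w) : ∀ᶠ δ : ℝ in 𝓝[>] 0, 0 < F (y0 + δ • w) := by
  filter_upwards [(slope hF h0 w).eventually_const_lt hw, self_mem_nhdsWithin] with δ h1 h2
  exact (div_pos_iff_of_pos_right h2).1 h1

theorem ray_neg {F : E n → ℝ} (hF : DifferentiableAt ℝ F y0) (h0 : F y0 = 0) {w : E n}
    (hw : fderiv ℝ F y0 w < 0) : ∀ᶠ δ : ℝ in 𝓝[>] 0, F (y0 + δ • w) < 0 := by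
  filter_upwards [(slope hF h0 w).eventually_lt_const hw, self_mem_nhdsWithin] with δ h1 h2
  exact ((div_neg_iff.1 h1).resolve_left fun k => lt_asymm k.2 h2).1

theorem ray {F : E n → ℝ} (hF : DifferentiableAt ℝ F y0) (h0 : F y0 = 0) {w : E n}
    (hw : 0 < fderiv ℝ F y0 w) :
    Tendsto (fun δ : ℝ => y0 + δ • w) (𝓝[>] 0) (𝓝[{y | 0 < F y}] y0) :=
  tendsto_nhdsWithin_iff.2 ⟨tend_sc y0 w, ray_pos hF h0 hw⟩

/-- a linear form which is nonnegative on a half space -/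
theorem half (hm : ξ m = 1) {q : E n →L[ℝ] ℝ} (h : ∀ w, 0 < ξ w → 0 ≤ q w) (w : E n) :
    q w = q m * ξ w := by
  have a : ∀ w, ξ w = 0 → 0 ≤ q w := fun w hw => by
    have : Tendsto (fun δ : ℝ => q (w + δ • m)) (𝓝[>] 0) (𝓝 (q w)) :=
      (q.continuous.tendsto w).comp (tend_sc w m)
    refine ge_of_tendsto this (eventually_mem_nhdsWithin.mono fun δ hδ => h _ ?_)
    rwa [map_add, map_smul, hw, hm, zero_add, smul_eq_mul, mul_one]
  have b := a (w - ξ w • m) (by simp [hm])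
  have c := a (-(w - ξ w • m)) (by simp [hm])
  simp only [map_neg, map_sub, map_smul, smul_eq_mul] at b c
  linarith

/-- the sign of a function whose differential is nonnegative on a half space -/
theorem side (hm : ξ m = 1) {F : E n → ℝ} (hF : DifferentiableAt ℝ F y0) (h0 : F y0 = 0)
    (F0 : ∃ i, pd i F y0 ≠ 0) (h : ∀ w, 0 < ξ w → ∀ᶠ δ : ℝ in 𝓝[>] 0, 0 ≤ F (y0 + δ • w))
    {w : E n} (hw : ξ w < 0) : ∀ᶠ δ : ℝ in 𝓝[>] 0, F (y0 + δ • w) < 0 := by
  have a : ∀ w, 0 < ξ w → 0 ≤ fderiv ℝ F y0 w := fun w hw => ge_of_tendsto (slope hF h0 w)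
    (((h w hw).and eventually_mem_nhdsWithin).mono fun δ k => div_nonneg k.1 (le_of_lt k.2))
  obtain ⟨i, hi⟩ := F0
  rw [pd_eq hF, half hm a] at hi
  refine ray_neg hF h0 ?_
  rw [half hm a]
  exact mul_neg_of_pos_of_neg ((a m (hm ▸ one_pos)).lt_of_ne' (left_ne_zero_of_mul hi)) hw

end Vale.Agent.P366HP
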