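import Vale.Agent.P366HP.Pan2
import Vale.Agent.P366F.Defs

/-!
# P366HP: the bound for the surface gravity in a chart
-/

open MeasureTheory Metric Filter Topology Set Asymptotics
open scoped ContDiff NNReal
open Vale.Agent.P366.Stmt Vale.Agent.P366Z
open Vale.Agent.P366F (aa)
open Vale.Agent.P366XR (Kid)

noncomputable section

namespace Vale.Agent.P366HP

variable {n : ℕ} {ξ : E n →L[ℝ] ℝ} {m y0 y : E n} {g K : Field n} {N s F : E n → ℝ}
  {X p : Fin n → E n → ℝ} {p0 : Fin n → ℝ} {κ t : ℝ} {B S : Set (E n)}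

theorem frame (hg : Met g) (hs : DifferentiableAt ℝ s y0) (ds : ∃ i, pd i s y0 ≠ 0) :
    ∃ (ξ : E n →L[ℝ] ℝ) (m : E n), ξ m = 1 ∧ gn g ξ y0 = 1 ∧ (∀ i, nrm g s i y0 = m i) ∧
      (∀ i, gr g ξ i y0 = m i) ∧ (∀ w, 0 < ξ w → 0 < fderiv ℝ s y0 w) ∧
      ∑ i, ∑ j, g y0 i j * m i * m j = 1 := by
  obtain ⟨i0, h0⟩ := ds
  have c : 0 < gn g s y0 := Real.sqrt_pos.2 (hg.up_pos y0 fun e => h0 (congrFun e i0))
  obtain ⟨ξ, h1, h2⟩ : ∃ ξ : E n →L[ℝ] ℝ, (∀ i, pd i ξ y0 = (gn g s y0)⁻¹ * pd i s y0) ∧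
      ∀ w, 0 < ξ w → 0 < fderiv ℝ s y0 w := ⟨(gn g s y0)⁻¹ • fderiv ℝ s y0,
    fun i => by rw [pd_lin, pd_eq hs, smul_apply, smul_eq_mul],
    fun w hw => (mul_pos_iff_of_pos_left (inv_pos.2 c)).1 hw⟩
  have h3 : gn g ξ y0 = 1 := by rw [gn_of_pd h1, abs_of_pos (inv_pos.2 c), inv_mul_cancel₀ c.ne']
  have h4 : ∑ i, pd i ξ y0 * gr g ξ i y0 = 1 := by rw [← ip_eq_gr, ← hg.gn_sq, h3, one_pow]
  refine ⟨ξ, WithLp.toLp 2 fun i => gr g ξ i y0, ?_, h3, fun i => ?_, fun i => rfl, h2, ?_⟩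
  · have := fderiv_eq_sum (x := y0) ξ.differentiableAt (WithLp.toLp 2 fun i => gr g ξ i y0)
    rw [ξ.fderiv] at this
    exact this.trans ((Finset.sum_congr rfl fun i _ => mul_comm _ _).trans h4)
  · simp only [nrm, gr, h1, ← gn_eq_covNorm, div_eq_inv_mul, Finset.mul_sum]
    exact Finset.sum_congr rfl fun i _ => by ring
  · rw [← h4]
    refine Finset.sum_congr rfl fun i _ => ?_
    rw [← hg.g_up_mul y0 i fun l => pd l ξ y0, Finset.sum_mul]
    exact Finset.sum_congr rfl fun j _ => mul_right_comm _ _ _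

theorem pf_eq (g : Field n) (p : Fin n → E n → ℝ) (φ : E n → ℝ) (y : E n) :
    pf g p φ y = (∑ i, p i y * gr g φ i y) * dens g y := by
  simp only [pf, gr, Finset.mul_sum, mul_assoc, mul_left_comm]

/-- the case of a point of the boundary -/
theorem panA (hg : Met g) (hp : ∀ i, Bm y0 (p i)) (hs : DifferentiableAt ℝ s y0) (s0 : s y0 = 0)
    (ds : ∃ i, pd i s y0 ≠ 0) (hF : Smooth F) (F0 : F y0 = 0) (dF : ∃ i, pd i F y0 ≠ 0)
    (ins : ∀ᶠ y in 𝓝 y0, 0 < s y → 0 < F y)
    (tp : ∀ i, Tendsto (p i) (𝓝[{y | 0 < s y}] y0) (𝓝 (p0 i))) (κ0 : 0 ≤ κ) (hB : B ∈ 𝓝 y0)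
    (db : ∀ φ, Smooth φ → HasCompactSupport φ → tsupport φ ⊆ B → (∀ y, 0 ≤ φ y) →
      -∫ y in {y | 0 < F y}, pf g p φ y ≤ κ * ∫ y in {y | 0 < F y}, gn g φ y * dens g y) :
    ∑ i, p0 i * nrm g s i y0 ≤ κ := by
  obtain ⟨ξ, m, hm, h1, h2, h3, h4, -⟩ := frame hg hs ds
  have a : ∀ w, 0 < ξ w → ∀ᶠ δ : ℝ in 𝓝[>] 0, 0 < F (y0 + δ • w) := fun w hw =>
    ((tend_sc y0 w).eventually ins).mp ((ray_pos hs s0 (h4 w hw)).mono fun _ k k' => k' k)
  have b : ∀ w, 0 < (-ξ) w → ∀ᶠ δ : ℝ in 𝓝[>] 0, y0 + δ • w ∉ {y | 0 < F y} := fun w hw =>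
    (side hm (hF.diff y0) F0 dF (fun w hw => (a w hw).mono fun _ => le_of_lt)
      (neg_pos.1 hw)).mono fun _ k => k.not_gt
  have hA : MeasurableSet {y | 0 < F y} := (isOpen_lt continuous_const hF.cont).measurableSet
  have e1 : gn g (-ξ :) y0 = 1 := by
    rw [gn_of_pd (s := -1) (u' := ξ) fun i => by
      simp only [pd_lin, neg_apply, neg_mul, one_mul], h1]; simp
  have e2 : ∀ i, gr g (-ξ :) i y0 = -m i := fun i => by
    simp only [← h3, gr, pd_lin, neg_apply, mul_neg, Finset.sum_neg_distrib]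
  have := core2 (ξ := -ξ) (m := -m) (c1 := 0) (c2 := (∑ i, p0 i * m i) * dens g y0) hg
    (by simp [hm]) hp hA hA hB κ0 zero_le_one (bm_cont y0 (continuous_const (y := 0)))
    (LocallyLipschitz.const 0) rfl (.of_forall fun _ => le_rfl) db
    (ae_of_all _ fun y _ => by simp [lineDeriv]) (fun w _ => by simp) (fun w hw => ?_) b
    fun w _ => .of_forall fun _ _ => le_rfl
  · rw [e1, zero_add, mul_one, one_mul] at this
    simpa only [h2] using le_of_mul_le_mul_right this (hg.dens_pos y0)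
  rcases hw.lt_or_gt with k | k
  · have c := (tendsto_finsetSum Finset.univ fun i _ => ((tp i).comp (ray hs s0 (h4 w
      (neg_neg_iff_pos.1 k)))).mul (((hg.sm_gr (-ξ).contDiff i).cont.tendsto y0).comp
      (tend_sc y0 w))).mul ((hg.sm_dens.cont.tendsto y0).comp (tend_sc y0 w))
    simp only [e2, mul_neg, Finset.sum_neg_distrib, neg_mul] at c
    rw [hv_le w k.le, mul_one]
    refine c.congr' ((a w (neg_neg_iff_pos.1 k)).mono fun δ h => ?_)
    simp only [indicator_of_mem (show y0 + δ • w ∈ {y | 0 < F y} from h), sub_zero, pf_eq,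
      Function.comp]
  · rw [hv_gt w k, mul_zero]
    exact tendsto_const_nhds.congr' ((b w k).mono fun δ h => by
      simp only [indicator_of_notMem h, sub_zero])

/-! ### the comparison function -/

/-- an upper bound for the length of `m` -/
def hn (g : Field n) (m y : E n) : ℝ := (1 + ∑ j, ∑ k, g y j k * m j * m k) / 2

/-- the comparison function -/
def fc (g : Field n) (N : E n → ℝ) (X : Fin n → E n → ℝ) (m y : E n) : ℝ :=
  N y * hn g m y - ∑ j, ∑ k, g y j k * m j * X k y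

/-- the Christoffel symbols with lower indices -/
def TT (g : Field n) (i j l : Fin n) (y : E n) : ℝ := ∑ k, g y j k * chr g k i l y

/-- the remainder -/
def RR (g K : Field n) (N : E n → ℝ) (X : Fin n → E n → ℝ) (m : E n) (i : Fin n) (y : E n) : ℝ :=
  ∑ j, ∑ k, TT g i k j y * m j * (N y * m k - X k y) +
    ∑ j, K y i j * (N y * m j - hn g m y * X j y)

theorem hn_sm (hg : Met g) (m : E n) : Smooth (hn g m) :=
  (contDiff_const.add (ContDiff.sum fun j _ => ContDiff.sum fun k _ =>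
    (ContDiff.mul (hg.sm j k) contDiff_const).mul contDiff_const)).div_const 2

theorem ll_mul {u v : E n → ℝ} (hu : LocallyLipschitz u) (hv : LocallyLipschitz v) :
    LocallyLipschitz fun y => u y * v y :=
  ((contDiff_fst.mul contDiff_snd : ContDiff ℝ 1 fun p : ℝ × ℝ => p.1 * p.2).locallyLipschitz).comp
    (hu.prodMk hv)

theorem ll_sum {U : Fin n → E n → ℝ} (h : ∀ i, LocallyLipschitz (U i)) (s : Finset (Fin n)) :
    LocallyLipschitz fun y => ∑ i ∈ s, U i y := by
  induction s using Finset.induction_on with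
  | empty => simpa using LocallyLipschitz.const 0
  | insert a s ha ih => simpa only [Finset.sum_insert ha] using (h a).add ih

theorem ll_sm {u : E n → ℝ} (hu : Smooth u) : LocallyLipschitz u :=
  (contDiff_iff_contDiffAt.2 hu.c1).locallyLipschitz

theorem fc_ll (hg : Met g) (hN : Lip N) (hX : ∀ i, Lip (X i)) (m : E n) :
    LocallyLipschitz (fc g N X m) :=
  (ll_mul hN.choose_spec.locallyLipschitz (ll_sm (hn_sm hg m))).sub (ll_sum (fun j => ll_sum
    (fun k => ll_mul (ll_mul (ll_sm (hg.sm j k)) (.const _)) (hX k).choose_spec.locallyLipschitz) _) _)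

theorem fc_nn (hg : Met g) (h0 : 0 ≤ N y) (h1 : P366RB.sq g X y ≤ N y ^ 2) (m : E n) :
    0 ≤ fc g N X m y := by
  have a := quad_cs (hg.sy y) (hg.g_nonneg y) (fun i => m i) fun i => X i y
  have b := hg.g_nonneg y fun i => m i
  have c := mul_le_mul_of_nonneg_left h1 b
  unfold fc hn P366RB.sq at *
  generalize ∑ j, ∑ k, g y j k * m j * m k = G at *
  refine sub_nonneg.2 (abs_le_of_sq_le_sq' ?_ (by positivity)).2
  nlinarith [mul_nonneg (sq_nonneg (N y)) (sq_nonneg (G - 1))]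

theorem fc_diff (hg : Met g) (hN : DifferentiableAt ℝ N y) (hX : ∀ i, DifferentiableAt ℝ (X i) y)
    (m : E n) : DifferentiableAt ℝ (fc g N X m) y :=
  (hN.mul ((hn_sm hg m).diff y)).sub (.fun_sum fun j _ => .fun_sum fun k _ =>
    (((hg.sm j k).diff y).mul_const _).mul (hX k))

theorem fc_pd (hg : Met g) (hN : DifferentiableAt ℝ N y) (hX : ∀ i, DifferentiableAt ℝ (X i) y)
    (m : E n) (i : Fin n) : pd i (fc g N X m) y =
      P366F.pp K N X i y * hn g m y - ∑ j, aa g K N X y i j * m j + RR g K N X m i y := by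
  have d := fun j k => ((hg.sm j k).diff y).mul_const (m j)
  have e : ∀ j k, pd i (fun y => g y j k) y = TT g i k j y + TT g i j k y := fun j k => hg.pd_g i j k y
  have a0 : pd i (hn g m) y = ∑ j, ∑ k, TT g i k j y * m j * m k := by
    have : ∑ j, ∑ k, TT g i j k y * m j * m k = ∑ j, ∑ k, TT g i k j y * m j * m k :=
      Finset.sum_comm.trans (Finset.sum_congr rfl fun j _ => Finset.sum_congr rfl fun k _ => by ring)
    unfold hn
    simp only [div_eq_mul_inv]
    rw [pd_mul_const, pd_const_add, pd_sum _ fun j _ => .fun_sum fun k _ => (d j k).mul_const _]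
    simp only [pd_sum _ fun k _ => (d _ k).mul_const _, pd_mul_const, e, add_mul,
      Finset.sum_add_distrib, this]
    ring
  have a1 : ∑ j, ∑ k, TT g i k j y * m j * (N y * m k - X k y) =
      N y * ∑ j, ∑ k, TT g i k j y * m j * m k - ∑ j, ∑ k, TT g i k j y * m j * X k y := by
    simp only [Finset.mul_sum, ← Finset.sum_sub_distrib]
    exact Finset.sum_congr rfl fun j _ => Finset.sum_congr rfl fun k _ => by ring
  have a2 : ∑ j, K y i j * (N y * m j - hn g m y * X j y) =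
      N y * ∑ j, K y i j * m j - hn g m y * ∑ j, K y i j * X j y := by
    simp only [Finset.mul_sum, ← Finset.sum_sub_distrib]
    exact Finset.sum_congr rfl fun j _ => by ring
  have a3 : ∑ j, aa g K N X y i j * m j = ∑ j, ∑ k, g y j k * m j * pd i (X k) y +
      ∑ j, ∑ k, TT g i j k y * m j * X k y + N y * ∑ j, K y i j * m j := by
    simp only [Finset.mul_sum, ← Finset.sum_add_distrib]
    refine Finset.sum_congr rfl fun j _ => ?_
    have : ∑ k, TT g i j k y * m j * X k y = ∑ k, g y j k * (∑ l, chr g k i l y * X l y) * m j := by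
      simp only [TT, Finset.sum_mul, Finset.mul_sum]
      exact Finset.sum_comm.trans
        (Finset.sum_congr rfl fun j _ => Finset.sum_congr rfl fun k _ => by ring)
    rw [Finset.sum_add_distrib, this, aa, add_mul, Finset.sum_mul, ← Finset.sum_add_distrib, mul_assoc]
    exact congrArg (· + _) (Finset.sum_congr rfl fun k _ => by rw [P366P.cd]; ring)
  have a4 : pd i (fun y => ∑ j, ∑ k, g y j k * m j * X k y) y = ∑ j, ∑ k, TT g i k j y * m j * X k y +
      ∑ j, ∑ k, TT g i j k y * m j * X k y + ∑ j, ∑ k, g y j k * m j * pd i (X k) y := by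
    rw [pd_sum _ fun j _ => .fun_sum fun k _ => (d j k).fun_mul (hX k)]
    simp only [← Finset.sum_add_distrib]
    refine Finset.sum_congr rfl fun j _ => (pd_sum _ (fun k _ => (d j k).fun_mul (hX k)) i).trans
      (Finset.sum_congr rfl fun k _ => ?_)
    rw [pd_mul (d j k) (hX k), pd_mul_const, e]
    ring
  unfold fc
  rw [pd_sub (hN.fun_mul ((hn_sm hg m).diff y)) (.fun_sum fun j _ => .fun_sum fun k _ =>
    (d j k).fun_mul (hX k)), pd_mul hN ((hn_sm hg m).diff y), a0, a4, RR, a1, a2, a3, P366F.pp]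
  ring

theorem skew (hK : ∀ y i j, K y i j = K y j i) (h : Kid g K N X y) (m : E n) :
    ∑ i, m i * ∑ j, aa g K N X y i j * m j = 0 := by
  have a : ∀ i j, aa g K N X y i j = -aa g K N X y j i := fun i j => by
    have := h i j
    rw [Finset.sum_add_distrib] at this
    unfold aa
    rw [hK y j i]
    linarith
  have b : ∑ i, m i * ∑ j, aa g K N X y i j * m j = -∑ i, m i * ∑ j, aa g K N X y i j * m j := by
    simp only [Finset.mul_sum, ← Finset.sum_neg_distrib]
    exact Finset.sum_comm.trans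
      (Finset.sum_congr rfl fun i _ => Finset.sum_congr rfl fun j _ => by rw [a]; ring)
  linarith

theorem lhop {f : E n → ℝ} {q : Fin n → ℝ} {w : E n} (hf : Continuous f) (f0 : f y0 = 0)
    (d : ∀ᶠ δ : ℝ in 𝓝[>] 0, DifferentiableAt ℝ f (y0 + δ • w))
    (l : ∀ i, Tendsto (fun δ : ℝ => pd i f (y0 + δ • w)) (𝓝[>] 0) (𝓝 (q i))) :
    Tendsto (fun δ : ℝ => f (y0 + δ • w) / δ) (𝓝[>] 0) (𝓝 (∑ i, w i * q i)) := by
  have a : ∀ᶠ δ : ℝ in 𝓝[>] 0,
      HasDerivAt (fun δ : ℝ => f (y0 + δ • w)) (∑ i, w i * pd i f (y0 + δ • w)) δ :=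
    d.mono fun δ h => by
      have := h.hasFDerivAt.comp_hasDerivAt δ (((hasDerivAt_id δ).smul_const w).const_add y0)
      rwa [one_smul, fderiv_eq_sum h] at this
  have c : Continuous fun δ : ℝ => f (y0 + δ • w) := by fun_prop
  have b := hasDerivWithinAt_Ici_of_tendsto_deriv
    (fun δ h => (HasDerivAt.differentiableAt h).differentiableWithinAt) c.continuousWithinAt a
    ((tendsto_finsetSum _ fun i _ => (l i).const_mul (w i)).congr' (a.mono fun δ h => h.deriv.symm))
  rw [hasDerivWithinAt_iff_tendsto_slope, Ici_sdiff_left] at b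
  exact b.congr fun δ => by rw [slope_def_field, zero_smul, add_zero, f0, sub_zero, sub_zero]

/-- the case of an interior point -/
theorem panB (hg : Met g) (smK : ∀ i j, Smooth fun y => K y i j) (hK : ∀ y i j, K y i j = K y j i)
    (hN : Lip N) (hX : ∀ i, Lip (X i)) (hs : DifferentiableAt ℝ s y0) (s0 : s y0 = 0)
    (ds : ∃ i, pd i s y0 ≠ 0) (hB : B ∈ 𝓝 y0) (wk : ∀ᵐ y, y ∈ B → Kid g K N X y)
    (ins : ∀ᶠ y in 𝓝 y0, 0 < s y → y ∉ S ∧ Kid g K N X y ∧ DifferentiableAt ℝ N y ∧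
      ∀ i, DifferentiableAt ℝ (X i) y)
    (le : ∀ᶠ y in 𝓝 y0, 0 ≤ N y ∧ P366RB.sq g X y ≤ N y ^ 2)
    (eq : ∀ i, X i y0 = N y0 * nrm g s i y0)
    (tp : ∀ i, Tendsto (P366F.pp K N X i) (𝓝[{y | 0 < s y}] y0) (𝓝 (p0 i)))
    (ta : ∀ i j, ∃ c, Tendsto (fun y => aa g K N X y i j) (𝓝[{y | 0 < s y}] y0) (𝓝 c))
    (hS : MeasurableSet S) (κ0 : 0 ≤ κ) (t0 : 0 ≤ t)
    (db : ∀ φ, Smooth φ → HasCompactSupport φ → tsupport φ ⊆ B → (∀ y, 0 ≤ φ y) →
      -∫ y, pf g (P366F.pp K N X) φ y ≤ κ * ∫ y in S, gn g φ y * dens g y)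
    (ht : 1 ≤ t ∨ ∃ s' : E n → ℝ, DifferentiableAt ℝ s' y0 ∧ s' y0 = 0 ∧ (∃ i, pd i s' y0 ≠ 0) ∧
      ∀ᶠ y in 𝓝 y0, 0 < s' y → y ∉ S ∧ s y < 0) :
    ∑ i, p0 i * nrm g s i y0 ≤ κ * t := by
  obtain ⟨ξ, m, hm, h1, h2, h3, h4, h5⟩ := frame hg hs ds
  choose a0 ta using ta
  simp only [h2] at eq ⊢
  have n1 : hn g m y0 = 1 := by rw [hn, h5]; norm_num
  have cn := (hn_sm hg m).cont
  have hp : ∀ i, Bm y0 (P366F.pp K N X i) := fun i => (bm_pd y0 hN i).add
    (bm_cont y0 (continuous_finsetSum _ fun j _ => (smK i j).cont.mul (hX j).cont))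
  have cR : ∀ i, Continuous (RR g K N X m i) := fun i =>
    (continuous_finsetSum _ fun j _ => continuous_finsetSum _ fun k _ =>
      ((continuous_finsetSum _ fun l _ => (hg.sm k l).cont.mul (hg.sm_chr l i j).cont).mul
        continuous_const).mul ((hN.cont.mul continuous_const).sub (hX k).cont)).add
      (continuous_finsetSum _ fun j _ => (smK i j).cont.mul
        ((hN.cont.mul continuous_const).sub (cn.mul (hX j).cont)))
  have R0 : ∀ i, RR g K N X m i y0 = 0 := fun i => by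
    simp only [RR, eq, n1, one_mul, sub_self, mul_zero, Finset.sum_const_zero, add_zero]
  have f0 : fc g N X m y0 = 0 := by
    have : ∑ j, ∑ k, g y0 j k * m j * (N y0 * m k) = N y0 * ∑ j, ∑ k, g y0 j k * m j * m k := by
      simp only [Finset.mul_sum, mul_left_comm]
    simp only [fc, eq, n1, this, h5, sub_self]
  have fl := fc_ll hg hN hX m
  have fn : ∀ᶠ y in 𝓝 y0, 0 ≤ fc g N X m y := le.mono fun y h => fc_nn hg h.1 h.2 m
  have a := fun w (hw : 0 < ξ w) =>
    ((tend_sc y0 w).eventually ins).mp ((ray_pos hs s0 (h4 w hw)).mono fun _ k k' => k' k)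
  have b : ∀ w, 0 < ξ w → Tendsto (fun δ : ℝ => fc g N X m (y0 + δ • w) / δ) (𝓝[>] 0)
      (𝓝 (∑ i, w i * (p0 i - ∑ j, a0 i j * m j))) := fun w hw => by
    refine lhop fl.continuous f0 ((a w hw).mono fun δ h => fc_diff hg h.2.2.1 h.2.2.2 m) fun i => ?_
    have r := ray hs s0 (h4 w hw)
    have := ((((tp i).comp r).mul ((cn.tendsto y0).comp (tend_sc y0 w))).sub
      (tendsto_finsetSum Finset.univ fun j _ => ((ta i j).comp r).mul_const (m j))).add
      (((cR i).tendsto y0).comp (tend_sc y0 w))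
    rw [n1, R0, mul_one, add_zero] at this
    exact this.congr' ((a w hw).mono fun δ h => (fc_pd hg h.2.2.1 h.2.2.2 m i).symm)
  have z : ∑ i, m i * ∑ j, a0 i j * m j = 0 := tendsto_nhds_unique
    (tendsto_finsetSum Finset.univ fun i _ => (tendsto_finsetSum Finset.univ fun j _ =>
      ((ta i j).comp (ray hs s0 (h4 m (hm ▸ one_pos)))).mul_const (m j)).const_mul (m i))
    (tendsto_const_nhds.congr' ((a m (hm ▸ one_pos)).mono fun δ h => (skew hK h.2.1 m).symm))
  have c : ∀ w : E n, ∑ i, w i * (p0 i - ∑ j, a0 i j * m j) = (∑ i, p0 i * m i) * ξ w := fun w => by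
    obtain ⟨q, hq⟩ : ∃ q : E n →L[ℝ] ℝ, ∀ w, q w = ∑ i, w i * (p0 i - ∑ j, a0 i j * m j) :=
      ⟨∑ i, (p0 i - ∑ j, a0 i j * m j) • EuclideanSpace.proj i, fun w => by simp [mul_comm]⟩
    rw [← hq, half hm (fun w hw => (hq w).symm ▸ ge_of_tendsto (b w hw) ((((tend_sc y0 w).eventually
      fn).and eventually_mem_nhdsWithin).mono fun δ k => div_nonneg k.1 (le_of_lt k.2))), hq]
    simp only [mul_sub, Finset.sum_sub_distrib, z, sub_zero, mul_comm]
  have d0 := hg.dens_pos y0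
  have := core2 (c1 := dens g y0 * ∑ i, p0 i * m i) (c2 := 0) (t := t)
    (f := fun y => dens g y0 * fc g N X m y) (D := fun y => dens g y0 * ∑ i, m i *
      (P366F.pp K N X i y * hn g m y + RR g K N X m i y)) hg hm hp .univ hS hB κ0 t0
    ((bm_cont _ continuous_const).mul (bm_sum fun i => (bm_cont _ continuous_const).mul
      (((hp i).mul (bm_cont _ cn)).add (bm_cont _ (cR i))))) (ll_mul (.const _) fl)
    (by rw [f0, mul_zero]) (fn.mono fun y h => mul_nonneg d0.le h)
    (by simpa only [Measure.restrict_univ] using db) ?_ (fun w hw => ?_) (fun w _ => ?_)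
    (fun w hw => (a w hw).mono fun _ h => h.1) fun w hw => ?_
  · rw [h1, add_zero, one_mul, mul_comm] at this
    exact le_of_mul_le_mul_right this d0
  · filter_upwards [wk, hN.ae_diff, ae_all_iff.2 fun i => (hX i).ae_diff] with y k1 k2 k3 hy
    have k := fc_diff hg k2 k3 m
    rw [(k.const_mul _).lineDeriv_eq_fderiv, fderiv_const_mul k, smul_apply, smul_eq_mul,
      fderiv_eq_sum k, ← sub_zero (∑ i, m i * (_ + _)), ← skew hK (k1 hy) m,
      ← Finset.sum_sub_distrib]
    exact congrArg _ (Finset.sum_congr rfl fun i _ => by rw [fc_pd (K := K) hg k2 k3]; ring)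
  · simpa only [c, mul_div_assoc, mul_assoc] using (b w hw).const_mul (dens g y0)
  · have := ((tendsto_finsetSum Finset.univ fun i _ => ((hp i).zero
      (v := fun y => gr g ξ i y * dens g y - dens g y0 * m i * hn g m y)
      (((hg.sm_gr ξ.contDiff i).cont.mul hg.sm_dens.cont).sub (continuous_const.mul cn))
      (by rw [h3, n1]; ring)).sub (((cR i).tendsto y0).const_mul (dens g y0 * m i))).comp
      (tend_sc y0 w))
    simp only [R0, mul_zero, sub_zero, Finset.sum_const_zero] at this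
    rw [neg_zero, zero_mul]
    refine this.congr fun δ => ?_
    simp only [Function.comp, indicator_univ, pf_eq, Finset.sum_mul, Finset.mul_sum,
      ← Finset.sum_sub_distrib]
    exact Finset.sum_congr rfl fun i _ => by ring
  · rcases ht with k | ⟨s', k1, k2, ⟨i, k3⟩, k4⟩
    · exact .of_forall fun _ _ => k
    · have := side hm (F := fun y => -s' y) k1.neg (by rw [k2, neg_zero])
        ⟨i, by rwa [pd_neg, neg_ne_zero]⟩ (fun w hw => (((tend_sc y0 w).eventually k4).and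
          (ray_pos hs s0 (h4 w hw))).mono fun δ h => neg_nonneg.2
            (not_lt.1 fun k => (h.1 k).2.not_gt h.2)) hw
      exact (this.and ((tend_sc y0 w).eventually k4)).mono fun δ h k =>
        ((h.2 (neg_neg_iff_pos.1 h.1)).1 k).elim

end Vale.Agent.P366HP
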